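import Vale.Agent.P022G.Fp.Base
import Vale.Agent.P022G.Fp.Lg

/-!
P022G: the local data when the residual representation is irreducible in normal form or upper
triangular.
-/

set_option linter.all false

noncomputable section

namespace Vale.Agent.P022E.Loc

open NumberField IsLocalRing
open Vale.Agent.P022 Vale.Agent.P022.H443 Vale.Agent.P022D Vale.Agent.P022D.R Vale.Agent.P022D.W
open Vale.Agent.P022.H346 (TF)
open Vale.Agent.P027M.S (mx)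
open Vale.Agent.P022D.Sel (M2 IsDec)
open Vale.Agent.P022G

variable {O F : Type} [CommRing O] [Field F]

/-- open kernel and eigenvalues in `F` -/
structure Dh0 (ρ : GQ →* GL (Fin 2) F) : Prop where
  opn : IsOpen {g : GQ | ρ g = 1}
  eig : ∀ g, ∃ a b : F, (mx ρ g).trace = a + b ∧ (mx ρ g).det = a * b

/-- irreducible in normal form, or upper triangular -/
def Wl (ρ : GQ →* GL (Fin 2) F) (g1 : GQ) : Prop := mx ρ g1 1 0 ≠ 0 ∨ ∀ g, mx ρ g 1 0 = 0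

/-- the hypotheses on the local data -/
structure Pl.Ok0 [IsLocalRing O] (L : Pl O) (S : Dat O F) : Prop where
  ker : ∀ c, S.red c = 0 ↔ c ∈ maximalIdeal O
  dh : Dh0 S.rb
  wl : Wl S.rb S.g1
  det : ∀ g, (mx S.rb g).det = 1
  hT : S.T = insert 0 (insert 2 (L.W ∪ L.C))
  dj : Disjoint L.W L.C
  pr : ∀ l ∈ L.W ∪ L.C, l.Prime ∧ l ≠ 2
  hP : ∀ l ∈ L.W ∪ L.C, (L.P l).IsPrime ∧ (l : 𝓞 Qb) ∈ L.P l
  h2 : L.P 2 = Loc2.PP 2
  cj : IsConj L.c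
  tm : ∀ l ∈ L.W ∪ L.C, Tm l (L.P l) (L.τ l) (L.φ l)
  dg : ∀ l ∈ L.W, ∀ g ∈ L.Hl l, L.rb S l g 0 1 = 0 ∧ L.rb S l g 1 0 = 0
  ad : ∀ l ∈ L.W, ∀ g ∈ W.dec (L.P l), g ∉ L.Hl l → L.rb S l g 0 0 = 0 ∧ L.rb S l g 1 1 = 0
  reg : ∀ l ∈ L.W, L.g0 l ∈ W.dec (L.P l) ∧ L.g0 l ∈ L.Hl l ∧
    L.rb S l (L.g0 l) 0 0 ≠ L.rb S l (L.g0 l) 1 1
  uni : ∀ l ∈ L.C, ∀ g ∈ W.dec (L.P l), (mx S.rb g).trace = 0
  lift : ∀ g, (L.r g).map S.red = mx S.rb g
  cont : ∀ k : ℕ, IsOpen {g : GQ | (L.r g).map (Ideal.Quotient.mk (maximalIdeal O ^ k)) = 1}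
  odd : (L.r L.c).det = -1
  ty : ∀ l ∈ L.W, ∃ y : O, Rt L.r (L.g0 l) y ∧ S.red y = L.rb S l (L.g0 l) 1 1 ∧
    En L.r (L.g0 l) (L.τ l) y (L.a l)

theorem Pl.Ok0.wd' [IsLocalRing O] [CharP F 2] {L : Pl O} {S : Dat O F} (h : L.Ok0 S) {l : ℕ}
    (hl : l ∈ L.W) {g : GQ} (h1 : g ∈ dec (L.P l)) (h2 : g ∈ L.Hl l)
    (h3 : L.rb S l g 0 0 ≠ L.rb S l g 1 1) : WD l ⊤ (L.Hd l) ⟨g, h1⟩ (L.rr S l) :=
  have hp := h.pr l (Finset.mem_union_left _ hl)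
  ⟨hp.1.odd_of_ne_two hp.2, CharTwo.two_eq_zero, fun x hx => h.dg l hl x hx,
    fun x hx => h.ad l hl x x.2 hx, trivial, h2, h3⟩

theorem Pl.Ok0.wd [IsLocalRing O] [CharP F 2] {L : Pl O} {S : Dat O F} (h : L.Ok0 S) {l : ℕ}
    (hl : l ∈ L.W) : WD l ⊤ (L.Hd l) ⟨L.g0 l, (h.reg l hl).1⟩ (L.rr S l) :=
  h.wd' hl _ (h.reg l hl).2.1 (h.reg l hl).2.2

theorem setG0 [IsLocalRing O] [IsAdicComplete (maximalIdeal O) O] {S : Dat O F} {L : Pl O} (hL : L.Ok0 S)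
    (g1 : ℕ → GQ) (h : ∀ l ∈ L.W, g1 l ∈ W.dec (L.P l) ∧ g1 l ∈ L.Hl l ∧
      L.rb S l (g1 l) 0 0 ≠ L.rb S l (g1 l) 1 1) :
    ∃ a : ℕ → O, Pl.Ok0 { L with g0 := g1, a := a } S := by
  have key : ∀ l ∈ L.W, ∃ a y : O, Rt L.r (g1 l) y ∧ S.red y = L.rb S l (g1 l) 1 1 ∧
      En L.r (g1 l) (L.τ l) y a := fun l hl =>
    ex_ty hL.ker hL.lift (hL.dg l hl _ (h l hl).2.1).1 (h l hl).2.2 _
  choose! a ha using key
  exact ⟨a, hL.ker, hL.dh, hL.wl, hL.det, hL.hT, hL.dj, hL.pr, hL.hP, hL.h2, hL.cj, hL.tm,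
    hL.dg, hL.ad, h, hL.uni, hL.lift, hL.cont, hL.odd, ha⟩

variable {S : Dat O F} {L : Pl O} {l : ℕ} {e v : Fin 2 → O} {u : O}
  {A : Type} [CommRing A] {ι : O →+* A} {π : A →+* F} {ρ : GQ →* M2 A} {t d : GQ → A}

theorem tst_pt0 [IsLocalRing O] (hL : L.Ok0 S) (hA : LR π) (alg : ∀ c, π (ι c) = S.red c) :
    Tst S ι π (rA L ι) := by
  refine ⟨hA, alg, fun g => ?_, ?_⟩
  · rw [← hL.lift]; ext i j; exact alg _
  · obtain ⟨n, hn⟩ := hA.nil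
    have hk : maximalIdeal O ^ n ≤ RingHom.ker ι := by
      have h1 : (maximalIdeal O).map ι ≤ RingHom.ker π := Ideal.map_le_iff_le_comap.2 fun c hc => by
        rw [Ideal.mem_comap, RingHom.mem_ker, alg]; exact (hL.ker c).2 hc
      have h2 := Ideal.pow_right_mono h1 n
      rw [hn, ← Ideal.map_pow] at h2
      exact Ideal.map_le_iff_le_comap.1 h2
    refine open_of (f := (Ideal.Quotient.mk (maximalIdeal O ^ n)).mapMatrix.toMonoidHom.comp L.r)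
      (fun g hg => ?_) (hL.cont n)
    ext i j
    have h1 : Ideal.Quotient.mk (maximalIdeal O ^ n) (L.r g i j) =
        Ideal.Quotient.mk (maximalIdeal O ^ n) ((1 : M2 O) i j) := by
      refine (congrFun (congrFun hg i) j).trans ?_
      simp only [Matrix.one_apply]; split_ifs <;> simp
    have h2 := hk (Ideal.Quotient.eq.1 h1)
    rw [RingHom.mem_ker, map_sub, sub_eq_zero] at h2
    refine h2.trans ?_
    simp only [Matrix.one_apply]; split_ifs <;> simp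

theorem Tst.pr0 [IsLocalRing O] [CharP F 2] (hL : L.Ok0 S) (hl : l ∈ L.W) (h : Tst S ι π ρ) :
    IsOpen {g | (ρ.prod (rA L ι)) g = 1} ∧ ∃ (N : Subgroup (dec (L.P l)))
      (h1 : L.τ l ∈ dec (L.P l)) (h2 : L.φ l ∈ dec (L.P l)),
      Pr π l ⊤ ((inP (L.P l)).subgroupOf (dec (L.P l))) N (L.Hd l) ⟨L.τ l, h1⟩ ⟨L.φ l, h2⟩
        ⟨L.g0 l, (hL.reg l hl).1⟩ (L.rr S l) (L.rs l ι ρ) (L.rs l ι (rA L ι)) := by
  have h' := tst_pt0 hL h.lr h.alg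
  have ho : IsOpen {g | (ρ.prod (rA L ι)) g = 1} := by
    convert h.opn.inter h'.opn using 1
    exact Set.ext fun g => Prod.ext_iff
  obtain ⟨N, hT⟩ := (hL.tm l (Finset.mem_union_left _ hl)).tame _ _ ho
  exact ⟨ho, _, _, _, hL.wd hl, h.lr, L.rs_lift l h.alg h.res, L.rs_lift l h.alg h'.res,
    tame_rs ι hT⟩

theorem Wc.ring0 [IsLocalRing O] [CharP F 2] (hc : Wc S L l e u v) (hL : L.Ok0 S) (hl : l ∈ L.W)
    (h : Tst S ι π ρ) :
    ((ρ (L.g0 l)).trace = ι (L.r (L.g0 l)).trace ∧ (ρ (L.g0 l)).det = ι (L.r (L.g0 l)).det) ∧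
    (L.τ l ∉ L.Hl l → (ρ (L.τ l)).trace = ι (L.r (L.τ l)).trace ∧
      (ρ (L.τ l * L.g0 l)).trace = ι (L.r (L.τ l * L.g0 l)).trace) ∧
    (L.τ l ∈ L.Hl l → ∀ y : Fin 2 → A, y = yW L l e u v ι (fun g => (ρ g).trace) →
      (∀ i, π (y i) = 1) ∧ (ρ (L.τ l)).det = y 0 * y 1 * ι (L.r (L.τ l)).det ∧
      (L.φ l ∈ L.Hl l → ∀ a m, Odd m → l = 2 ^ a * m + 1 → ∀ i, y i ^ 2 ^ a = 1) ∧
      (L.φ l ∉ L.Hl l → y 1 = y 0 ^ l ∧
        ∀ c m, Odd m → l ^ 2 = 2 ^ c * m + 1 → y 0 ^ 2 ^ c = 1)) := by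
  obtain ⟨ho, N, m1, m2, hP⟩ := h.pr0 hL hl
  set g0 : dec (L.P l) := ⟨L.g0 l, (hL.reg l hl).1⟩ with hg0
  set τ : dec (L.P l) := ⟨L.τ l, m1⟩ with hτ0
  have he : W.Tm π (L.rr S l) g0 fun i => ι (e i) := by
    obtain ⟨m, hm, k⟩ := hc.tm
    exact ⟨m, hm, fun i => ⟨by rw [← map_pow, (k i).1, map_one], by rw [h.alg, (k i).2]; rfl⟩⟩
  have o := hc.odd.pow _ ho
  have oo : ∀ {σ : GQ →* M2 A} {m : ℕ}, σ (L.g0 l) ^ m = 1 → L.rs l ι σ g0 ^ m = 1 := by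
    intro σ m hm
    show L.ch l ι (σ (L.g0 l)) ^ m = 1
    rw [← map_pow, hm, map_one]
  have o1 : ∃ m, Odd m ∧ L.rs l ι ρ g0 ^ m = 1 :=
    o.imp fun m hm => ⟨hm.1, oo (congrArg Prod.fst hm.2)⟩
  have o2 : ∃ m, Odd m ∧ L.rs l ι (rA L ι) g0 ^ m = 1 :=
    o.imp fun m hm => ⟨hm.1, oo (congrArg Prod.snd hm.2)⟩
  have T1 := hP.T.comp (MonoidHom.fst _ _)
  have T2 := hP.T.comp (MonoidHom.snd _ _)
  have hD := hP.T.ID hP.T.tau
  have t1 := L.rs_tr l ι ρ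
  have d1 := L.rs_dt l ι ρ
  have t2 : ∀ g : dec (L.P l), trc (L.rs l ι (rA L ι)) g = ι (L.r g).trace := fun g =>
    (L.rs_tr l ι _ g).trans (rA_tr _)
  have d2 : ∀ g : dec (L.P l), dtm (L.rs l ι (rA L ι)) g = ι (L.r g).det := fun g =>
    (L.rs_dt l ι _ g).trans (rA_dt _)
  have k0 : ∀ {σ : dec (L.P l) →* M2 A}, Lift π (L.rr S l) σ →
      TameAt l ⊤ ((inP (L.P l)).subgroupOf (dec (L.P l))) N τ ⟨L.φ l, m2⟩ σ →
      (∃ m, Odd m ∧ σ g0 ^ m = 1) →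
      trc σ g0 = ι (e 0) + ι (e 1) ∧ dtm σ g0 = ι (e 0) * ι (e 1) := by
    intro σ hσ hT o
    obtain ⟨P, Q, h1, h2, hP', hM⟩ := exists_mon hP.W hP.A hσ hT
    have eg := hM.eig hP.W hP.A (hσ.cj h1 h2 hP') he (o.imp fun m hm => ⟨hm.1, by
      rw [MonoidHom.comp_apply, ← map_pow, hm.2, map_one]⟩)
    rw [← trc_cj σ P Q h1 h2, ← dtm_cj σ P Q h1 h2]
    simp only [trc, dtm, Matrix.trace_fin_two, Matrix.det_fin_two, eg,
      hM.off _ hP.W.g0D hP.W.g0H 0 1 (by decide), zero_mul, sub_zero, and_self]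
  refine ⟨?_, fun hτ => ?_, fun hτ y hy => ?_⟩
  · exact ⟨(t1 g0).symm.trans ((k0 hP.l1 T1 o1).1.trans ((k0 hP.l2 T2 o2).1.symm.trans (t2 g0))),
      (d1 g0).symm.trans ((k0 hP.l1 T1 o1).2.trans ((k0 hP.l2 T2 o2).2.symm.trans (d2 g0)))⟩
  · obtain ⟨a1, a2⟩ := (dd_lin hP.W hP.A hP.l1 T1 he o1 hD).2.2 hτ
    obtain ⟨b1, b2⟩ := (dd_lin hP.W hP.A hP.l2 T2 he o2 hD).2.2 hτ
    refine ⟨(t1 τ).symm.trans (a1.trans (b1.symm.trans (t2 τ))), ?_⟩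
    have c : ∀ σ : dec (L.P l) →* M2 A, trc σ (τ * g0) = trc σ (g0 * τ) := fun σ => by
      simp only [trc, map_mul]; exact Matrix.trace_mul_comm _ _
    exact (t1 (τ * g0)).symm.trans ((c _).trans (a2.trans (b2.symm.trans
      ((c _).symm.trans (t2 (τ * g0))))))
  · have k : y = yy π (L.rr S l g0 0 0) g0 τ (trc (L.rs l ι ρ)) (dtm (L.rs l ι ρ))
        (trc (L.rs l ι (rA L ι))) (dtm (L.rs l ι (rA L ι))) := by
      funext i
      have c := congrArg ι (hc.chi hτ i)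
      have q2 := th_dd (dec (L.P l)).subtype (t := fun g => ι (L.r g).trace) t2 hP.W hP.A hP.l2 T2
        he hc.inv o2 hD hτ i
      have q1 := th_dd (dec (L.P l)).subtype (t := fun g => (ρ g).trace) t1 hP.W hP.A hP.l1 T1
        he hc.inv o1 hD hτ i
      rw [map_mul, map_one, th_map ι (ι' := ι) (t' := fun g => ι (L.r g).trace) (fun _ => rfl)
        (fun g => rfl)] at c
      erw [q2] at c
      rw [hy, yy]
      erw [← q1]
      rw [yW, mul_comm]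
      congr 1
      have hu := IsUnit.of_mul_eq_one_right _ c
      apply hu.mul_right_cancel
      rw [c]
      exact (Ring.inverse_mul_cancel _ hu).symm
    obtain ⟨p1, p2, -, p4, p5⟩ := hP.unr hτ y k
    rw [d1, d2] at p2
    exact ⟨p1, p2, p4, p5⟩

theorem exists_wc0 [IsLocalRing O] [IsAdicComplete (maximalIdeal O) O] [CharP F 2] (hL : L.Ok0 S) :
    ∃ (g1 : ℕ → GQ) (a : ℕ → O) (e : ℕ → Fin 2 → O) (u : ℕ → O) (v : ℕ → Fin 2 → O),
      Pl.Ok0 { L with g0 := g1, a := a } S ∧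
      ∀ l ∈ L.W, Wc S { L with g0 := g1, a := a } l (e l) (u l) (v l) := by
  have hk : RingHom.ker S.red = maximalIdeal O := Ideal.ext fun c => hL.ker c
  have loc : ∀ a : O, S.red a ≠ 0 → IsUnit a := fun a ha => by
    by_contra hn
    exact ha ((hL.ker a).2 hn)
  haveI : HenselianRing O (RingHom.ker S.red) := by rw [hk]; infer_instance
  have key : ∀ l ∈ L.W, ∃ (g1 : GQ) (e : Fin 2 → O) (u : O) (v : Fin 2 → O),
      (g1 ∈ dec (L.P l) ∧ g1 ∈ L.Hl l ∧ L.rb S l g1 0 0 ≠ L.rb S l g1 1 1) ∧ ProOdd g1 ∧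
      W.Tm S.red (L.rb S l) g1 e ∧ u * (e 0 - e 1) = 1 ∧ (L.τ l ∈ L.Hl l → ∀ i,
        v i * th (RingHom.id O) (fun g => (L.r g).trace) g1 (L.τ l) e u i = 1) := by
    intro l hl
    have ho : IsOpen {g : GQ | L.rb S l g = 1} :=
      open_of (f := S.rb) (fun g hg => by
        rw [Pl.rb_apply, show mx S.rb g = 1 from congrArg Units.val hg, mul_one, L.cu_mul])
        hL.dh.opn
    obtain ⟨r1, r2, r3⟩ := hL.reg l hl
    obtain ⟨h01, h10⟩ := hL.dg l hl _ r2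
    obtain ⟨m, hm, em⟩ := odd_order CharTwo.two_eq_zero ho h01 h10
    obtain ⟨g1, hg, e1, hp⟩ := exists_proOdd (L.rb S l) ho (dec (L.P l)) (isClosed_dec _) r1 hm em
    have hH : g1 ∈ L.Hl l := ((hL.wd hl).mem_iff (g := ⟨g1, hg⟩)).2 (by
      show L.rb S l g1 0 1 = 0
      rw [e1, h01])
    have hne : L.rb S l g1 0 0 ≠ L.rb S l g1 1 1 := by rw [e1]; exact r3
    have hW := hL.wd' hl hg hH hne
    obtain ⟨k01, k10⟩ := hL.dg l hl _ hH
    have h1 : ∀ i, L.rb S l g1 i i ^ m = 1 := fun i => by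
      have key : ∀ n : ℕ, (L.rb S l g1 ^ n) i i = L.rb S l g1 i i ^ n := by
        intro n
        induction n with
        | zero => simp
        | succ n ih =>
          rw [pow_succ', pow_succ', ← ih]
          fin_cases i <;> simp [Matrix.mul_apply, Fin.sum_univ_two, k01, k10]
      rw [← key, e1, em, Matrix.one_apply_eq]
    choose e he using fun i => exists_teich S.red S.surj loc hW.two hm (h1 i)
    obtain ⟨u, hu⟩ := (loc (e 0 - e 1) (by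
      rw [map_sub, (he 0).2, (he 1).2, sub_ne_zero]; exact hne)).exists_left_inv
    have hv : ∀ i, ∃ v : O, L.τ l ∈ L.Hl l →
        v * th (RingHom.id O) (fun g => (L.r g).trace) g1 (L.τ l) e u i = 1 := by
      intro i
      by_cases hτ : L.τ l ∈ L.Hl l
      · refine (loc _ ?_).exists_left_inv.imp fun v hv _ => hv
        rw [th_map S.red (ι := RingHom.id O) (t := fun g => (L.r g).trace) (ι' := S.red)
          (t' := trc (L.rb S l)) (fun _ => rfl) (fun g =>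
            (trc_map S.red (ρ := L.r) (ρ' := rbm S) hL.lift g).symm.trans (L.rb_tr l g).symm)]
        have c := congrArg S.red hu
        rw [map_mul, map_sub, map_one, (he 0).2, (he 1).2] at c
        have e0 : th S.red (trc (L.rb S l)) g1 (L.τ l) e u i = L.rb S l (L.τ l) i i := by
          fin_cases i <;>
            simp only [th, trc, map_mul, Matrix.trace_fin_two, Matrix.mul_apply, Fin.sum_univ_two,
              (he 0).2, (he 1).2, k01, k10, Fin.zero_eta,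
              Fin.mk_one, Matrix.cons_val_zero, Matrix.cons_val_one, Matrix.cons_val_fin_one]
          · linear_combination (L.rb S l (L.τ l) 0 0) * c
          · linear_combination (L.rb S l (L.τ l) 1 1) * c
        rw [e0]
        obtain ⟨N, hT⟩ := (hL.tm l (Finset.mem_union_left _ hl)).tame _ _ ho
        exact hW.dne i (g := ⟨L.τ l, hT.ID hT.tau⟩) hτ
      · exact ⟨0, fun h => absurd h hτ⟩
    choose v hv using hv
    exact ⟨g1, e, u, v, ⟨hg, hH, hne⟩, hp, ⟨m, hm, he⟩, hu, fun h i => hv i h⟩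
  choose! g1 e u v h1 h2 h3 h4 h5 using key
  obtain ⟨a, ha⟩ := setG0 hL g1 h1
  exact ⟨g1, a, e, u, v, ha, fun l hl => ⟨h2 l hl, h3 l hl, h4 l hl, h5 l hl⟩⟩

theorem Pl.Ok0.all [IsLocalRing O] [CharP F 2] (hL : L.Ok0 S) (tri : ∀ g, mx S.rb g 1 0 = 0)
    (hl : l ∈ L.W) {g : GQ}
    (hg : g ∈ dec (L.P l)) : g ∈ L.Hl l := by
  by_contra hn
  have hW := hL.wd hl
  obtain ⟨r1, r2, r3⟩ := hL.reg l hl
  obtain ⟨a0, a1⟩ := hL.ad l hl g hg hn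
  obtain ⟨b0, b1⟩ := hL.dg l hl _ r2
  have m : ∀ g k, mx S.rb (g * k) = mx S.rb g * mx S.rb k := fun g k =>
    congrArg Units.val (map_mul S.rb g k)
  have m0 : ∀ g k, mx S.rb (g * k) 0 0 = mx S.rb g 0 0 * mx S.rb k 0 0 := fun g k => by
    rw [m, ent1 _ _ (show (0 : Fin 2) ≠ 1 by decide), tri, mul_zero, add_zero]
  have m1 : ∀ g k, mx S.rb (g * k) 1 1 = mx S.rb g 1 1 * mx S.rb k 1 1 := fun g k => by
    rw [m, ent1 _ _ (show (1 : Fin 2) ≠ 0 by decide), tri, zero_mul, add_zero]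
  have dt : ∀ g, mx S.rb g 0 0 * mx S.rb g 1 1 = 1 := fun g => by
    rw [← hL.det g, Matrix.det_fin_two, tri, mul_zero, sub_zero]
  have two : (2 : F) = 0 := CharTwo.two_eq_zero
  have t1 := L.rb_tr (S := S) l g
  have t2 := L.rb_tr (S := S) l (g * L.g0 l)
  have t3 := L.rb_tr (S := S) l (L.g0 l)
  rw [map_mul] at t2
  simp only [Matrix.trace_fin_two, Matrix.mul_apply, Fin.sum_univ_two, a0, a1, b0, b1, m0, m1,
    mul_zero, zero_mul, add_zero] at t1 t2 t3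
  apply r3
  have d1 := dt g
  linear_combination t3 - (mx S.rb g 1 1) * t2 +
    (mx S.rb g 1 1 * mx S.rb (L.g0 l) 1 1) * t1 -
    (mx S.rb (L.g0 l) 0 0 - mx S.rb (L.g0 l) 1 1) * d1 +
    (mx S.rb (L.g0 l) 1 1 - L.rb S l (L.g0 l) 1 1) * two

structure Ts0 (S : Dat O F) (L : Pl O) {A : Type} [CommRing A] (ι : O →+* A) (π : A →+* F)
    (t d : GQ → A) : Prop where
  lr : LR π
  alg : ∀ c, π (ι c) = S.red c
  tf : ∃ d' : GQ →* Aˣ, TF t d' ∧ ∀ g, (d' g : A) = d g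
  rt : ∀ g, π (t g) = (mx S.rb g).trace
  rd : ∀ g, π (d g) = (mx S.rb g).det
  opn : ∃ U : Subgroup GQ, IsOpen (U : Set GQ) ∧ ∀ u ∈ U, ∀ g, t (g * u) = t g

theorem Ts0.pr [IsLocalRing O] [CharP F 2] (hL : L.Ok0 S) (tri : ∀ g, mx S.rb g 1 0 = 0)
    (hl : l ∈ L.W) (h : Ts0 S L ι π t d) :
    ∃ (σ : dec (L.P l) →* Mt A) (N : Subgroup (dec (L.P l)))
      (h1 : L.τ l ∈ dec (L.P l)) (h2 : L.φ l ∈ dec (L.P l)),
      Pr π l ⊤ ((inP (L.P l)).subgroupOf (dec (L.P l))) N (L.Hd l) ⟨L.τ l, h1⟩ ⟨L.φ l, h2⟩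
        ⟨L.g0 l, (hL.reg l hl).1⟩ (L.rr S l) σ (L.rs l ι (rA L ι)) ∧
      (∀ g, trc σ g = t g) ∧ (∀ g, dtm σ g = d g) ∧
      (ProOdd (L.g0 l) → ∃ m, Odd m ∧ σ ⟨L.g0 l, (hL.reg l hl).1⟩ ^ m = 1 ∧
        L.rs l ι (rA L ι) ⟨L.g0 l, (hL.reg l hl).1⟩ ^ m = 1) := by
  have h' := tst_pt0 hL h.lr h.alg
  obtain ⟨d', T, hd⟩ := h.tf
  obtain ⟨U, hU, hu⟩ := h.opn
  let K : Subgroup GQ := ⟨⟨⟨{u | ∀ g, t (g * u) = t g}, fun {a b} ha hb g => by
    rw [← mul_assoc, hb, ha]⟩, fun g => by rw [mul_one]⟩, fun {a} ha g => by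
    rw [← ha (g * a⁻¹), inv_mul_cancel_right]⟩
  haveI : K.Normal := ⟨fun a ha b g => by
    rw [← mul_assoc, T.comm, ← mul_assoc, ← mul_assoc, ha, mul_assoc, T.comm,
      mul_inv_cancel_right]⟩
  have := galQb
  have hK : IsOpen (K : Set GQ) := Subgroup.isOpen_mono (fun u k => hu u k) hU
  let f : GQ →* (GQ ⧸ K) × M2 A := (QuotientGroup.mk' K).prod (rA L ι)
  have ho : IsOpen {g | f g = 1} := by
    convert hK.inter h'.opn using 1
    exact Set.ext fun g => Prod.ext_iff.trans (and_congr (QuotientGroup.eq_one_iff g) Iff.rfl)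
  have hf : ∀ g k : GQ, f g = f k → (∀ y, t (g * y) = t (k * y)) ∧ rA L ι g = rA L ι k := by
    intro g k e
    refine ⟨fun y => ?_, congrArg Prod.snd e⟩
    have e1 : g⁻¹ * k ∈ K := QuotientGroup.eq.1 (congrArg Prod.fst e)
    rw [T.comm g, T.comm k, ← e1 (y * g), mul_assoc, mul_inv_cancel_left]
  obtain ⟨N, hT⟩ := (hL.tm l (Finset.mem_union_left _ hl)).tame _ _ ho
  obtain ⟨σ, s1, s2, s3, s4⟩ := Lg.locdiag (hL.wd hl) h.lr (tame_res hT)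
    (fun g => hL.all tri hl g.2) (fun x => by
      obtain ⟨c, rfl⟩ := S.surj x
      exact ⟨_, h.alg c⟩) (t := fun g => t g) (d := d'.comp (dec (L.P l)).subtype)
    ⟨T.one, fun g k => T.comm g k, fun g k => T.mul g k⟩
    (fun g => (h.rt g).trans (L.rb_tr l g).symm)
    (fun g => (congrArg π (hd g)).trans ((h.rd g).trans (L.rb_det l g).symm))
    fun g k e y => (hf g k e).1 y
  have hf' : ∀ g k : dec (L.P l), f g = f k →
      (σ.prod (L.rs l ι (rA L ι))) g = (σ.prod (L.rs l ι (rA L ι))) k := fun g k e =>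
    Prod.ext (s4 g k fun y => (hf g k e).1 y) (congrArg (L.ch l ι) (hf g k e).2)
  refine ⟨σ, _, _, _, ⟨hL.wd hl, h.lr, s1, L.rs_lift l h.alg h'.res,
    Lg.tame_of (tame_res hT) hf'⟩, s2, fun g => (s3 g).trans (hd g), fun hodd => ?_⟩
  obtain ⟨m, hm, e⟩ := hodd.pow f ho
  have := hf' (⟨L.g0 l, (hL.reg l hl).1⟩ ^ m) 1 (by
    rw [Subgroup.coe_pow, map_pow, e, Subgroup.coe_one, map_one])
  rw [map_pow, map_one] at this
  exact ⟨m, hm, congrArg Prod.fst this, congrArg Prod.snd this⟩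

theorem Ts0.tst [IsLocalRing O] (h10 : mx S.rb S.g1 1 0 ≠ 0) (h : Ts0 S L ι π t d) :
    ∃ ρ : GQ →* M2 A, Tst S ι π ρ ∧ (∀ g, (ρ g).trace = t g) ∧ ∀ g, (ρ g).det = d g := by
  obtain ⟨d', T, hd⟩ := h.tf
  obtain ⟨n, hn⟩ := h.lr.nil
  have := P022D.Gma.henselian_of_pow hn
  obtain ⟨b, hb⟩ := S.surj (rbm S S.g1 0 1)
  have e0 : rbm S S.g0 = !![rbm S S.g0 0 0, 0; 0, rbm S S.g0 1 1] := by
    ext i j
    fin_cases i <;> fin_cases j
    exacts [rfl, S.d01, S.d10, rfl]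
  obtain ⟨ρ, α, β, _, _, _, a1, a2, a3, -, -, -, -, -, -, -, -, a6⟩ := P022D.Gma.exists_lift π
    (fun x => by
      obtain ⟨c, rfl⟩ := S.surj x
      exact ⟨_, h.alg c⟩) h.lr.loc (t := t) (d := d') T (rbm S) h.rt
    (fun g => (congrArg π (hd g)).trans (h.rd g))
    S.g0 S.g1 e0 S.dne h10 _ ((h.alg b).trans hb) S.n01
  refine ⟨ρ, ⟨h.lr, h.alg, a3, ?_⟩, a1, fun g => (a2 g).trans (hd g)⟩
  obtain ⟨U, hU, hu⟩ := h.opn
  have := galQb
  have e : (kr ρ : Set GQ) = {g : GQ | ρ g = 1} := Set.ext (mem_kr ρ)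
  rw [← e]
  exact Subgroup.isOpen_mono (fun u k => (mem_kr _ _).2 (a6 u (hu u k))) hU

theorem ring0 [IsLocalRing O] [CharP F 2] (hc : Wc S L l e u v) (hL : L.Ok0 S) (hl : l ∈ L.W)
    (h : Ts0 S L ι π t d) :
    (t (L.g0 l) = ι (L.r (L.g0 l)).trace ∧ d (L.g0 l) = ι (L.r (L.g0 l)).det) ∧
    (L.τ l ∉ L.Hl l → t (L.τ l) = ι (L.r (L.τ l)).trace ∧
      t (L.τ l * L.g0 l) = ι (L.r (L.τ l * L.g0 l)).trace) ∧
    (L.τ l ∈ L.Hl l → ∀ y : Fin 2 → A, y = yW L l e u v ι t →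
      (∀ i, π (y i) = 1) ∧ d (L.τ l) = y 0 * y 1 * ι (L.r (L.τ l)).det ∧
      (L.φ l ∈ L.Hl l → ∀ a m, Odd m → l = 2 ^ a * m + 1 → ∀ i, y i ^ 2 ^ a = 1) ∧
      (L.φ l ∉ L.Hl l → y 1 = y 0 ^ l ∧
        ∀ c m, Odd m → l ^ 2 = 2 ^ c * m + 1 → y 0 ^ 2 ^ c = 1)) := by
  rcases hL.wl with h10 | tri
  · obtain ⟨ρ, hT, e1, e2⟩ := h.tst h10
    obtain rfl : (fun g => (ρ g).trace) = t := funext e1
    obtain rfl : (fun g => (ρ g).det) = d := funext e2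
    exact hc.ring0 hL hl hT
  obtain ⟨σ1, N, m1, m2, hP, t1, d1, o⟩ := h.pr hL tri hl
  replace o := o hc.odd
  set g0 : dec (L.P l) := ⟨L.g0 l, (hL.reg l hl).1⟩ with hg0
  set τ : dec (L.P l) := ⟨L.τ l, m1⟩ with hτ0
  have he : W.Tm π (L.rr S l) g0 fun i => ι (e i) := by
    obtain ⟨m, hm, k⟩ := hc.tm
    exact ⟨m, hm, fun i => ⟨by rw [← map_pow, (k i).1, map_one], by rw [h.alg, (k i).2]; rfl⟩⟩
  have o1 : ∃ m, Odd m ∧ σ1 g0 ^ m = 1 := o.imp fun m hm => ⟨hm.1, hm.2.1⟩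
  have o2 : ∃ m, Odd m ∧ L.rs l ι (rA L ι) g0 ^ m = 1 := o.imp fun m hm => ⟨hm.1, hm.2.2⟩
  have T1 := hP.T.comp (MonoidHom.fst _ _)
  have T2 := hP.T.comp (MonoidHom.snd _ _)
  have hD := hP.T.ID hP.T.tau
  have t2 : ∀ g : dec (L.P l), trc (L.rs l ι (rA L ι)) g = ι (L.r g).trace := fun g =>
    (L.rs_tr l ι _ g).trans (rA_tr _)
  have d2 : ∀ g : dec (L.P l), dtm (L.rs l ι (rA L ι)) g = ι (L.r g).det := fun g =>
    (L.rs_dt l ι _ g).trans (rA_dt _)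
  have k0 : ∀ {σ : dec (L.P l) →* M2 A}, Lift π (L.rr S l) σ →
      TameAt l ⊤ ((inP (L.P l)).subgroupOf (dec (L.P l))) N τ ⟨L.φ l, m2⟩ σ →
      (∃ m, Odd m ∧ σ g0 ^ m = 1) →
      trc σ g0 = ι (e 0) + ι (e 1) ∧ dtm σ g0 = ι (e 0) * ι (e 1) := by
    intro σ hσ hT o
    obtain ⟨P, Q, h1, h2, hP', hM⟩ := exists_mon hP.W hP.A hσ hT
    have eg := hM.eig hP.W hP.A (hσ.cj h1 h2 hP') he (o.imp fun m hm => ⟨hm.1, by
      rw [MonoidHom.comp_apply, ← map_pow, hm.2, map_one]⟩)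
    rw [← trc_cj σ P Q h1 h2, ← dtm_cj σ P Q h1 h2]
    simp only [trc, dtm, Matrix.trace_fin_two, Matrix.det_fin_two, eg,
      hM.off _ hP.W.g0D hP.W.g0H 0 1 (by decide), zero_mul, sub_zero, and_self]
  refine ⟨?_, fun hτ => ?_, fun hτ y hy => ?_⟩
  · exact ⟨(t1 g0).symm.trans ((k0 hP.l1 T1 o1).1.trans ((k0 hP.l2 T2 o2).1.symm.trans (t2 g0))),
      (d1 g0).symm.trans ((k0 hP.l1 T1 o1).2.trans ((k0 hP.l2 T2 o2).2.symm.trans (d2 g0)))⟩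
  · obtain ⟨a1, a2⟩ := (dd_lin hP.W hP.A hP.l1 T1 he o1 hD).2.2 hτ
    obtain ⟨b1, b2⟩ := (dd_lin hP.W hP.A hP.l2 T2 he o2 hD).2.2 hτ
    refine ⟨(t1 τ).symm.trans (a1.trans (b1.symm.trans (t2 τ))), ?_⟩
    have c : ∀ σ : dec (L.P l) →* M2 A, trc σ (τ * g0) = trc σ (g0 * τ) := fun σ => by
      simp only [trc, map_mul]; exact Matrix.trace_mul_comm _ _
    exact (t1 (τ * g0)).symm.trans ((c _).trans (a2.trans (b2.symm.trans
      ((c _).symm.trans (t2 (τ * g0))))))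
  · have k : y = yy π (L.rr S l g0 0 0) g0 τ (trc σ1) (dtm σ1)
        (trc (L.rs l ι (rA L ι))) (dtm (L.rs l ι (rA L ι))) := by
      funext i
      have c := congrArg ι (hc.chi hτ i)
      have q2 := th_dd (dec (L.P l)).subtype (t := fun g => ι (L.r g).trace) t2 hP.W hP.A hP.l2 T2
        he hc.inv o2 hD hτ i
      have q1 := th_dd (dec (L.P l)).subtype (t := t) t1 hP.W hP.A hP.l1 T1
        he hc.inv o1 hD hτ i
      rw [map_mul, map_one, th_map ι (ι' := ι) (t' := fun g => ι (L.r g).trace) (fun _ => rfl)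
        (fun g => rfl)] at c
      erw [q2] at c
      rw [hy, yy]
      erw [← q1]
      rw [yW, mul_comm]
      congr 1
      have hu := IsUnit.of_mul_eq_one_right _ c
      apply hu.mul_right_cancel
      rw [c]
      exact (Ring.inverse_mul_cancel _ hu).symm
    obtain ⟨p1, p2, -, p4, p5⟩ := hP.unr hτ y k
    rw [d1, d2] at p2
    exact ⟨p1, p2, p4, p5⟩

theorem Ts0.dl [IsLocalRing O] [CharP F 2] (hL : L.Ok0 S) (hl : l ∈ L.W ∪ L.C)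
    (h : Ts0 S L ι π t d) {a m : ℕ} (hm : Odd m) (ha : l = 2 ^ a * m + 1) {x : O}
    (hx : x * (L.r (L.τ l)).det = 1) : (d (L.τ l) * ι x) ^ 2 ^ a = 1 := by
  have h' := tst_pt0 hL h.lr h.alg
  obtain ⟨d', T, hd⟩ := h.tf
  obtain ⟨U, hU, hu⟩ := h.opn
  let δ : GQ →* A := (Units.coeHom A).comp d'
  have hδ : ∀ g, δ g = d g := hd
  have un : IsUnit (t S.g0) := h.lr.loc _ (by
    rw [h.rt, Matrix.trace_fin_two, Ne, CharTwo.add_eq_zero]
    exact S.dne)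
  have o1 : IsOpen {g | δ g = 1} := by
    have := galQb
    have e : (kr δ : Set GQ) = {g : GQ | δ g = 1} := Set.ext (mem_kr δ)
    rw [← e]
    refine Subgroup.isOpen_mono (fun u k => (mem_kr _ _).2 ?_) hU
    have a1 := T.mul S.g0 u
    have a2 := hu u k 1
    rw [one_mul, T.one] at a2
    rw [a2, hu u k, hu _ (U.inv_mem k)] at a1
    refine un.mul_right_cancel ?_
    show (d' u : A) * _ = _
    linear_combination -a1
  let δ' : GQ →* A := Matrix.detMonoidHom.comp (rA L ι)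
  have ho : IsOpen {g | (δ.prod (rA L ι)) g = 1} := by
    convert o1.inter h'.opn using 1
    exact Set.ext fun g => Prod.ext_iff
  obtain ⟨N, hT⟩ := (hL.tm l hl).tame _ _ ho
  obtain ⟨p, hp, e⟩ := hT.rel _ hT.tau
  obtain ⟨n, hn, e'⟩ := hT.odd p hp
  have p1 : ∀ g, π (δ g) = 1 := fun g => by rw [hδ, h.rd, hL.det]
  have p2 : ∀ g, π (δ' g) = 1 := fun g => by
    show π (rA L ι g).det = 1
    rw [RingHom.map_det, RingHom.mapMatrix_apply, h'.res, hL.det]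
  have key : ∀ {σ : GQ →* A}, (∀ g, π (σ g) = 1) → σ p ^ n = 1 →
      σ (L.τ l) ^ l = σ (L.τ l) := by
    intro σ hσ hp
    have e1 : σ p = 1 := odd_root h.lr CharTwo.two_eq_zero hn
      (by rw [hp, one_pow]) (by rw [hσ, map_one]) (by simp)
    have e2 := congrArg σ e
    have e3 : σ (L.φ l) * σ (L.φ l)⁻¹ = 1 := by
      rw [← map_mul, mul_inv_cancel, map_one]
    simp only [map_mul, map_pow, e1, one_mul] at e2
    rw [← e2, mul_right_comm, e3, one_mul]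
  have k1 := key p1 (congrArg Prod.fst e')
  have k2 := key p2 (by
    have := congrArg (fun z : A × M2 A => z.2.det) e'
    show (rA L ι p).det ^ n = 1
    rw [← Matrix.det_pow]
    exact this.trans Matrix.det_one)
  have hx' : ι x * δ' (L.τ l) = 1 := by
    rw [show δ' (L.τ l) = _ from rA_dt _, ← map_mul, hx, map_one]
  rw [← hδ]
  refine two_pow_of h.lr CharTwo.two_eq_zero ?_ hm ?_
  · have := congrArg π hx'
    rw [map_mul, p2, mul_one, map_one] at this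
    rw [map_mul, p1, this, one_mul]
  · rw [← ha, mul_pow, k1]
    congr 1
    have hu := IsUnit.of_mul_eq_one_right _ hx'
    apply hu.mul_right_cancel
    rw [hx', ← k2, ← mul_pow, hx', one_pow]

theorem wloc0 [IsLocalRing O] [CharP F 2] (hc : Wc S L l e u v) (hL : L.Ok0 S) (hl : l ∈ L.W)
    {a b m w : ℕ} (hm : Odd m) (hw : Odd w) (ha : l = 2 ^ a * m + 1) (hb : l + 1 = 2 ^ b * w)
    {x : O} (hx : x * (L.r (L.τ l)).det = 1) (h : Ts0 S L ι π t d) :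
    WRel L l a b x (cW e u v) (zW L l e u) ι t d Eq
      (yW L l e u v ι t 0) (yW L l e u v ι t 1)
      (d (L.τ l) * ι x) := by
  obtain ⟨⟨a1, a2⟩, a3, a4⟩ := ring0 hc hL hl h
  have hx' := congrArg ι hx
  rw [map_mul, map_one] at hx'
  have d : L.τ l ∈ L.Hl l → d (L.τ l) * ι x = yW L l e u v ι t 0 *
      yW L l e u v ι t 1 := fun hτ => by
    rw [(a4 hτ _ rfl).2.1, mul_assoc, mul_comm _ (ι x), hx', mul_one]
  refine ⟨(yW_c _ _).1, (yW_c _ _).2, rfl, a1, a2,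
    h.dl hL (Finset.mem_union_left _ hl) hm ha hx,
    fun hτ => hc.t_eq hτ ι t,
    fun hτ hφ => ?_, fun hτ hφ => ?_, a3⟩
  · have := (a4 hτ _ rfl).2.2.1 hφ a m hm ha
    exact ⟨this 0, this 1, d hτ⟩
  · obtain ⟨b1, b2⟩ := (a4 hτ _ rfl).2.2.2 hφ
    exact ⟨b2 _ _ (hm.mul hw) (sq_two ha hb), b1, by rw [d hτ, b1, pow_succ']⟩

open As in
theorem tst0 {a : Ideal (Tg O)} [IsLocalRing O] (hL : L.Ok0 S) (h : Gp0 L.r a) (ha : a ≠ ⊤) :
    ∃ π : Tg O ⧸ a →+* F, Loc.Ts0 S L ((Ideal.Quotient.mk a).comp MvPolynomial.C) π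
      (fun g => Ideal.Quotient.mk a (tt g)) fun g => Ideal.Quotient.mk a (As.dd g) := by
  have un : ∀ b, S.red (ev0 L.r b) ≠ 0 → IsUnit (Ideal.Quotient.mk a b) := by
    intro b hb
    have h1 : IsUnit (ev0 L.r b) := by
      by_contra hn
      exact hb ((hL.ker _).2 hn)
    obtain ⟨k, hk⟩ := h.rad b
    have h2 : IsNilpotent (Ideal.Quotient.mk a (b - cc (ev0 L.r b))) :=
      ⟨k, by rw [← map_pow]; exact Ideal.Quotient.eq_zero_iff_mem.2 hk⟩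
    have h3 := h2.isUnit_add_right_of_commute
      ((h1.map (MvPolynomial.C (σ := GQ ⊕ GQ ⊕ ℕ))).map (Ideal.Quotient.mk a)) (Commute.all _ _)
    rwa [← map_add, cc, sub_add_cancel] at h3
  let π : Tg O ⧸ a →+* F := Ideal.Quotient.lift a (S.red.comp (ev0 L.r)) fun b hb => by
    by_contra hn
    have := un b hn
    rw [Ideal.Quotient.eq_zero_iff_mem.2 hb, isUnit_zero_iff, Ideal.Quotient.zero_eq_one_iff] at this
    exact ha this
  have loc : ∀ x, π x ≠ 0 → IsUnit x := fun x => by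
    obtain ⟨x, rfl⟩ := Ideal.Quotient.mk_surjective x
    exact un x
  have alg : ∀ c, π (((Ideal.Quotient.mk a).comp MvPolynomial.C) c) = S.red c := fun c => by
    show S.red (ev0 L.r (MvPolynomial.C c)) = _
    simp [ev0]
  have := h.fin
  let d' : GQ →* Tg O ⧸ a := ⟨⟨fun g => Ideal.Quotient.mk a (As.dd g), Ideal.Quotient.eq.2 h.d1⟩,
    fun g k => Ideal.Quotient.eq.2 (h.dm g k)⟩
  obtain ⟨U, hU, hu⟩ := h.opn
  refine ⟨π, W.LR.of_finite π loc, alg, ⟨d'.toHomUnits,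
    ⟨(Ideal.Quotient.eq.2 h.t1).trans (map_ofNat _ 2), fun g k => Ideal.Quotient.eq.2 (h.tc g k),
      fun g k => Ideal.Quotient.eq.2 (h.tm g k)⟩, fun _ => rfl⟩, fun g => ?_, fun g => ?_,
    U, hU, fun u k g => Ideal.Quotient.eq.2 (hu u k g)⟩
  · show S.red (ev0 L.r (tt g)) = _
    rw [show ev0 L.r (tt g) = (L.r g).trace by simp [ev0, tt]]
    exact (W.trc_map S.red (ρ := L.r) (ρ' := rbm S) hL.lift g).symm
  · show S.red (ev0 L.r (As.dd g)) = _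
    rw [show ev0 L.r (As.dd g) = (L.r g).det by simp [ev0, As.dd]]
    exact (W.dtm_map S.red (ρ := L.r) (ρ' := rbm S) hL.lift g).symm

open As in
theorem Wc.wlocI0 [IsLocalRing O] [CharP F 2] (hc : Wc S L l e u v) (hL : L.Ok0 S) (hl : l ∈ L.W)
    {a b m w : ℕ} (hm : Odd m) (hw : Odd w) (ha : l = 2 ^ a * m + 1) (hb : l + 1 = 2 ^ b * w)
    {x : O} (hx : x * (L.r (L.τ l)).det = 1) {I : Ideal (Tg O)} (h : Gp0 L.r I) :
    WRel L l a b x (cW e u v) (zW L l e u) MvPolynomial.C tt As.dd (fun p q => p - q ∈ I)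
      (yT L l e u v 0) (yT L l e u v 1) (As.dd (L.τ l) * cc x) := by
  by_cases hI : I = ⊤
  · subst hI
    exact ⟨(yW_c _ _).1, (yW_c _ _).2, rfl, trivial, trivial, trivial, fun hτ => hc.t_eq hτ _ _,
      fun _ _ => ⟨trivial, trivial, trivial⟩, fun _ _ => ⟨trivial, trivial, trivial⟩,
      fun _ => ⟨trivial, trivial⟩⟩
  obtain ⟨π, hT⟩ := tst0 hL h hI
  have k := wloc0 hc hL hl hm hw ha hb hx hT
  have hy : ∀ i, yW L l e u v ((Ideal.Quotient.mk I).comp MvPolynomial.C) (fun g => Ideal.Quotient.mk I (tt g)) i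
      = Ideal.Quotient.mk I (yT L l e u v i) := fun i =>
    (yW_map (Ideal.Quotient.mk I) (fun _ => rfl) (fun g => rfl) L l e u v i).symm
  rw [hy, hy] at k
  have q : ∀ {p q : Tg O}, Ideal.Quotient.mk I p = Ideal.Quotient.mk I q → p - q ∈ I :=
    Ideal.Quotient.eq.1
  refine ⟨(yW_c _ _).1, (yW_c _ _).2, rfl, q k.tg, q k.dg,
    q k.dl_pow, fun hτ => hc.t_eq hτ _ _, fun h1 h2 => ?_, fun h1 h2 => ?_, fun h1 => ?_⟩
  · obtain ⟨b1, b2, b3⟩ := k.split h1 h2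
    exact ⟨q b1, q b2, q b3⟩
  · obtain ⟨b1, b2, b3⟩ := k.inert h1 h2
    exact ⟨q b1, q b2, q b3⟩
  · obtain ⟨b1, b2⟩ := k.ram h1
    exact ⟨q b1, q b2⟩

open As in
theorem dlM0 [IsLocalRing O] [CharP F 2] (hL : L.Ok0 S) (hl : l ∈ L.W ∪ L.C) {a m : ℕ} (hm : Odd m)
    (ha : l = 2 ^ a * m + 1) {x : O} (hx : x * (L.r (L.τ l)).det = 1) {Y : Type*}
    [AddCommGroup Y] [Module (Tg O) Y] {y : Y} (h : Gp0 L.r (Ideal.torsionOf (Tg O) Y y)) :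
    ((As.dd (L.τ l) * cc x) ^ 2 ^ a : Tg O) • y = y := by
  by_cases hI : Ideal.torsionOf (Tg O) Y y = ⊤
  · have : (1 : Tg O) • y = 0 := (Ideal.mem_torsionOf_iff _ _).1 (hI ▸ trivial)
    rw [one_smul] at this
    rw [this, smul_zero]
  obtain ⟨π, hT⟩ := tst0 hL h hI
  have k := hT.dl hL hl hm ha hx
  have := Ideal.Quotient.eq.1 (show Ideal.Quotient.mk _ ((As.dd (L.τ l) * cc x) ^ 2 ^ a) =
    Ideal.Quotient.mk _ 1 from k)
  rwa [Ideal.mem_torsionOf_iff, sub_smul, sub_eq_zero, one_smul] at this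

open Expl in
theorem expl0 (O F : Type) [CommRing O] [IsLocalRing O] [IsAdicComplete (maximalIdeal O) O]
    [Field F] [Finite F] [CharP F 2] (S : Dat O F) (H : Subgroup GQ) (r : GQ →* M2 O) (c : GQ)
    (Sf : Finset ℕ) (hk : ∀ c, S.red c = 0 ↔ c ∈ maximalIdeal O) (hD : Dh0 S.rb)
    (h10 : Wl S.rb S.g1) (hdet : ∀ g, (mx S.rb g).det = 1) (hT : S.T = insert 0 (insert 2 Sf))
    (hS : ∀ l ∈ Sf, l.Prime ∧ l ≠ 2) (hc : IsConj c) (hr : ∀ g, (r g).map S.red = mx S.rb g)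
    (hcont : ∀ k : ℕ, IsOpen {g : GQ | (r g).map (Ideal.Quotient.mk (maximalIdeal O ^ k)) = 1})
    (hodd : (r c).det = -1) :
    ∃ L : Pl O, L.Ok0 S ∧ L.H = H ∧ L.r = r ∧ L.c = c ∧ L.W ∪ L.C = Sf ∧
      ∀ l ∈ Sf, l ∈ L.C ↔ UniF S.rb l := by
  classical
  have loc : ∀ x : O, S.red x ≠ 0 → IsUnit x := fun x hx =>
    (notMem_maximalIdeal (R := O)).1 fun h => hx ((hk x).2 h)
  let f : GQ →* M2 F := (Units.coeHom _).comp S.rb
  have ho : IsOpen {g : GQ | f g = 1} := by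
    convert hD.opn using 2
    exact funext fun g => propext ⟨fun e => Units.ext e, fun e => congrArg Units.val e⟩
  have key : ∀ l ∈ Sf, ∃ (P : Ideal (𝓞 Qb)) (τ φ g0 : GQ) (a : O) (K : Subgroup GQ)
      (U : GL (Fin 2) O), (P.IsPrime ∧ (l : 𝓞 Qb) ∈ P) ∧ Tm l P τ φ ∧ (¬ UniF S.rb l →
        ∀ σ : GQ → M2 F, (σ = fun g => (U : M2 O).map S.red * mx S.rb g *
          ((U⁻¹ : GL (Fin 2) O) : M2 O).map S.red) →
        (∀ g ∈ K, σ g 0 1 = 0 ∧ σ g 1 0 = 0) ∧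
        (∀ g ∈ W.dec P, g ∉ K → σ g 0 0 = 0 ∧ σ g 1 1 = 0) ∧
        (g0 ∈ W.dec P ∧ g0 ∈ K ∧ σ g0 0 0 ≠ σ g0 1 1) ∧
        ∃ y : O, Rt r g0 y ∧ S.red y = σ g0 1 1 ∧ En r g0 τ y a) := fun l hl => by
    obtain ⟨l1, l2⟩ := hS l hl
    by_cases hU : UniF S.rb l
    · obtain ⟨P, p1, p2⟩ := ex_prime l1
      obtain ⟨τ, φ, t⟩ := tm l1 l2 p1 p2
      exact ⟨P, τ, φ, 1, 0, ⊥, 1, ⟨p1, p2⟩, t, fun h => absurd hU h⟩
    · simp only [UniF, not_forall] at hU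
      obtain ⟨P, p1, p2, g, hg, ht⟩ := hU
      obtain ⟨τ, φ, t⟩ := tm l1 l2 p1 p2
      obtain ⟨N, hN⟩ := t.tame _ f ho
      obtain ⟨u, v, K, g0, huv, b1, b2, b3, b4, b5⟩ := G4.g4 CharTwo.two_eq_zero hN
        (Set.toFinite _) (fun g _ => hdet g) (fun g _ => hD.eig g) (mem_dec l1 p1 p2 hg) ht
      obtain ⟨U, rfl, rfl⟩ := G4.lift_uv S.red S.surj loc huv
      obtain ⟨c1, c2⟩ := G4.tr_det huv (b3 g0 b2).1
      obtain ⟨a, y, k⟩ := G4.root S.red S.surj hk (r g0).trace (r g0).det (r (τ * g0)).trace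
        (r τ).trace (Eq.trans (by
          show _ = (mx S.rb g0).trace
          rw [← hr g0, Matrix.trace_fin_two, Matrix.trace_fin_two, map_add]; rfl) c1)
        (Eq.trans (by
          show _ = (mx S.rb g0).det
          rw [← hr g0, RingHom.map_det]; rfl) c2) b5
      refine ⟨P, τ, φ, g0, a, K, U, ⟨p1, p2⟩, t, ?_⟩
      rintro - _ rfl
      exact ⟨b3, b4, ⟨b1, b2, b5⟩, y, k⟩
  choose! P τ φ g0 a K U h1 h2 h3 using key
  have un : Sf.filter (fun l => ¬ UniF S.rb l) ∪ Sf.filter (fun l => UniF S.rb l) = Sf := by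
    rw [Finset.union_comm, Finset.filter_union_filter_not_eq]
  have e : ∀ l ∈ Sf, (if l = 2 then Loc2.PP 2 else P l) = P l := fun l hl => if_neg (hS l hl).2
  refine ⟨⟨H, K, U, Sf.filter fun l => ¬ UniF S.rb l, Sf.filter fun l => UniF S.rb l,
    fun l => if l = 2 then Loc2.PP 2 else P l, c, τ, φ, g0, r, a⟩,
    ⟨hk, hD, h10, hdet, by rw [hT, un], (Finset.disjoint_filter_filter_not Sf Sf _).symm, ?_, ?_,
      (if_pos rfl : (if 2 = 2 then Loc2.PP 2 else P 2) = _), hc, ?_, ?_, ?_, ?_, ?_, hr, hcont, hodd, ?_⟩, rfl, rfl, rfl, un, fun l hl => ?_⟩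
  · intro l hl
    rw [un] at hl
    exact hS l hl
  · intro l hl
    rw [un] at hl
    show (if l = 2 then Loc2.PP 2 else P l).IsPrime ∧ _ ∈ (if l = 2 then Loc2.PP 2 else P l)
    rw [e l hl]
    exact h1 l hl
  · intro l hl
    rw [un] at hl
    show Tm l (if l = 2 then Loc2.PP 2 else P l) _ _
    rw [e l hl]
    exact h2 l hl
  · intro l hl
    obtain ⟨k1, k2⟩ := Finset.mem_filter.1 hl
    exact (h3 l k1 k2 _ rfl).1
  · intro l hl g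
    obtain ⟨k1, k2⟩ := Finset.mem_filter.1 hl
    show _ ∈ W.dec (if l = 2 then Loc2.PP 2 else P l) → _
    rw [e l k1]
    exact (h3 l k1 k2 _ rfl).2.1 g
  · intro l hl
    obtain ⟨k1, k2⟩ := Finset.mem_filter.1 hl
    show _ ∈ W.dec (if l = 2 then Loc2.PP 2 else P l) ∧ _
    rw [e l k1]
    exact (h3 l k1 k2 _ rfl).2.2.1
  · intro l hl g
    obtain ⟨k1, k2⟩ := Finset.mem_filter.1 hl
    show _ ∈ W.dec (if l = 2 then Loc2.PP 2 else P l) → _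
    rw [e l k1]
    exact fun hg => k2 _ (h1 l k1).1 (h1 l k1).2 g fun x hx => (hg x).2 hx
  · intro l hl
    obtain ⟨k1, k2⟩ := Finset.mem_filter.1 hl
    exact (h3 l k1 k2 _ rfl).2.2.2
  · exact ⟨fun h => (Finset.mem_filter.1 h).2, fun h => Finset.mem_filter.2 ⟨hl, h⟩⟩

theorem expl20 (O F : Type) [CommRing O] [IsLocalRing O] [IsAdicComplete (maximalIdeal O) O]
    [Field F] [Finite F] [CharP F 2] (S : Dat O F) (H : Subgroup GQ) (r : GQ →* M2 O) (c : GQ)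
    (Sf : Finset ℕ) (h1 : ∀ c, S.red c = 0 ↔ c ∈ maximalIdeal O) (h2 : Dh0 S.rb)
    (h10 : Wl S.rb S.g1)
    (h3 : ∀ g, (mx S.rb g).det = 1) (h4 : S.T = insert 0 (insert 2 Sf))
    (h5 : ∀ l ∈ Sf, l.Prime ∧ l ≠ 2) (h6 : IsConj c) (h7 : ∀ g, (r g).map S.red = mx S.rb g)
    (h8 : ∀ k : ℕ, IsOpen {g : GQ | (r g).map (Ideal.Quotient.mk (maximalIdeal O ^ k)) = 1})
    (h9 : (r c).det = -1) :
    ∃ (L : Pl O) (e : ℕ → Fin 2 → O) (u : ℕ → O) (v : ℕ → Fin 2 → O), L.Ok0 S ∧ L.H = H ∧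
      L.r = r ∧ L.c = c ∧ L.W ∪ L.C = Sf ∧ (∀ l ∈ Sf, l ∈ L.C ↔ UniF S.rb l) ∧
      ∀ l ∈ L.W, Wc S L l (e l) (u l) (v l) := by
  obtain ⟨L, a1, a2, a3, a4, a5, a6⟩ := expl0 O F S H r c Sf h1 h2 h10 h3 h4 h5 h6 h7 h8 h9
  obtain ⟨g1, a, e, u, v, b1, b2⟩ := exists_wc0 a1
  exact ⟨_, e, u, v, b1, a2, a3, a4, a5, a6, b2⟩

/-- **the hypotheses of the forms side** -/
theorem Pl.Ok0.okG [IsLocalRing O] [CharP F 2] (h : L.Ok0 S) : L.OkG S :=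
  ⟨h.ker, ⟨h.dh.opn⟩, h.det, h.hT, h.dj, h.pr, h.hP, h.h2, h.cj, h.tm, h.dg, h.ad, h.reg, h.uni,
    h.lift, h.cont, h.odd, h.ty,
    fun _ hl _ _ _ hc _ _ _ _ hm hw ha hb _ hx _ hI => hc.wlocI0 h hl hm hw ha hb hx hI⟩

end Vale.Agent.P022E.Loc
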