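import Vale.Agent.P022E.Fm.Basic
import Vale.Agent.P022G.Fp.Base

/-!
# P022D, forms side: basic facts on the Hecke algebra, the carrier and the levels
-/

set_option linter.all false

open scoped MatrixGroups

noncomputable section

namespace Vale.Agent.P022E.Fm

open Vale.Agent.P022 Vale.Agent.P022D.V Vale.Agent.P022E.V Vale.Agent.P027M.M
open Vale.Agent.P022D.G (Wd wT wS Inert)

/-! ### abstract part -/

section abs

variable {O A : Type} [CommRing O] [AddCommGroup A] [Module O A]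

variable {H : Subalgebra O (Module.End O A)} {G Y Y' : Submodule O A}

end abs

/-! ### groups -/

section grp

variable {M N K : ℕ}

end grp

/-! ### the Hecke algebra -/

section hecke

variable {O : Type} [CommRing O] [Co O] {M N i : ℕ}

end hecke

/-! ### the carrier -/

section car

variable {O F : Type} [CommRing O] [Field F] [Co O] {U : Su O F} {M : ℕ}

namespace Su.IsU

variable {e e' : U.B M} {g g' : GM M}

end Su.IsU

end car

/-! ### levels -/

section lev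

variable {O F : Type} [CommRing O] [Field F] [IsLocalRing O] [Co O] {U : Su O F}

namespace Su.OkG

variable (h : U.OkG)
include h

theorem prC {l : ℕ} (hl : l ∈ U.L.C) : l.Prime ∧ l ≠ 2 :=
  h.ok.pr l (Finset.mem_union_right _ hl)

theorem prW {l : ℕ} (hl : l ∈ U.L.W) : l.Prime ∧ l ≠ 2 :=
  h.ok.pr l (Finset.mem_union_left _ hl)

theorem dvdNC {l : ℕ} (hp : l.Prime) : l ∣ U.NC ↔ l ∈ U.L.C := by
  rw [h.NC, hp.prime.dvd_finset_prod_iff]
  exact ⟨fun ⟨a, ha, e⟩ => (Nat.prime_dvd_prime_iff_eq hp (h.prC ha).1).1 e ▸ ha,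
    fun hl => ⟨l, hl, dvd_rfl⟩⟩

theorem dvdN {l : ℕ} (hp : l.Prime) : l ∣ U.N ↔ l ∈ U.L.W ∪ U.L.C := by
  rw [Su.N, hp.dvd_mul, h.NW l hp, h.dvdNC hp, Finset.mem_union]

theorem memT {l : ℕ} (hp : l.Prime) : l ∈ U.S.T ↔ l ∣ 2 * U.N := by
  rw [h.ok.hT, hp.dvd_mul, h.dvdN hp, Nat.prime_dvd_prime_iff_eq hp Nat.prime_two,
    Finset.mem_insert, Finset.mem_insert]
  exact or_iff_right hp.ne_zero

theorem NCne : U.NC ≠ 0 := by
  rw [h.NC]; exact Finset.prod_ne_zero_iff.2 fun l hl => (h.prC hl).1.ne_zero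

theorem Nne : U.N ≠ 0 := mul_ne_zero h.NW0 h.NCne

theorem odd : Odd U.N := Nat.not_even_iff_odd.1 fun e =>
  (h.ok.pr 2 ((h.dvdN Nat.prime_two).1 e.two_dvd)).2 rfl

theorem three : 3 ≤ U.N := by
  have key : ∀ l ∈ U.L.W ∪ U.L.C, 3 ≤ U.N := fun l hl => by
    obtain ⟨p1, p2⟩ := h.ok.pr l hl
    have h1 := Nat.le_of_dvd (Nat.pos_of_ne_zero h.Nne) ((h.dvdN p1).2 hl)
    have h2 := p1.two_le
    omega
  rcases h.W3 with ⟨l, hl⟩ | ⟨l, hl, -⟩
  · exact key l (Finset.mem_union_left _ hl)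
  · exact key l (Finset.mem_union_right _ hl)

theorem cop : Nat.Coprime U.NW U.NC := Nat.coprime_of_dvd fun l hp h1 h2 =>
  Finset.disjoint_left.1 h.ok.dj ((h.NW l hp).1 h1) ((h.dvdNC hp).1 h2)

theorem zN : U.z ^ U.N = 1 := by
  obtain ⟨r1, r2, -⟩ := root O U.N h.odd
  apply (Co.inj : Function.Injective (Co.j : O →+* ℂ))
  rw [map_pow, h.z, ← r1, ← map_pow, r2.pow, map_one, map_one]

end Su.OkG

namespace Lv

variable {r n M : ℕ} {q : Fin r → ℕ} {b : Fin r → (ZMod M)ˣ} {τ : Fin r → GQ}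
  (h : U.OkG) (H : Lv U r n M q b τ)

include h H

theorem ndG (i : Fin r) : ¬ q i ∣ 2 * U.N := fun e => (H.pr i).2 ((h.memT (H.pr i).1).2 e)

theorem q_twoG (i : Fin r) : q i ≠ 2 := fun e => H.ndG h i (by rw [e]; exact dvd_mul_right _ _)

theorem q_oddG (i : Fin r) : Odd (q i) := (H.pr i).1.odd_of_ne_two (H.q_twoG h i)

theorem oddG : Odd M := by
  rw [H.eq]
  exact h.odd.mul (Finset.prod_induction q Odd (fun _ _ => Odd.mul) odd_one fun i _ => H.q_oddG h i)

theorem threeG : 3 ≤ M := h.three.trans (Nat.le_of_dvd (H.oddG h).pos H.dvd)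

theorem copG : Nat.Coprime U.N (∏ i, q i) := Nat.Coprime.prod_right fun i _ =>
  ((H.pr i).1.coprime_iff_not_dvd.2 fun e => H.ndG h i (e.mul_left 2)).symm

theorem spG (i : Fin r) : Sp M (M / q i) (q i) := by
  have p := (H.pr i).1
  refine ⟨(Nat.div_mul_cancel (H.q_dvd i)).symm, ?_, p, H.oddG h⟩
  rw [H.div_eq, Nat.coprime_comm, p.coprime_iff_not_dvd, p.dvd_mul, p.prime.dvd_finset_prod_iff]
  rintro (e | ⟨j, hj, e⟩)
  · exact H.ndG h i (e.mul_left 2)
  · exact (Finset.mem_erase.1 hj).1 (H.inj ((Nat.prime_dvd_prime_iff_eq p (H.pr j).1).1 e)).symm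

end Lv

end lev

end Vale.Agent.P022E.Fm
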