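import Vale.Agent.P022E.Fm.ChR
import Vale.Agent.P022G.Fp.Base

/-!
# P022D, forms side: row CH
-/

set_option linter.all false

noncomputable section

namespace Vale.Agent.P022E.Fm

open Vale.Agent.P022 Vale.Agent.P022D.V Vale.Agent.P022E.V Vale.Agent.P027M.M

namespace ChR

variable {O F : Type} [CommRing O] [Field F] [IsLocalRing O] [Co O] {U : Su O F}

theorem facG (hU : U.OkG) {l : ℕ} (hl : l ∈ U.L.C) :
    U.N = U.N / l * l ∧ ¬ l ∣ U.N / l ∧ U.N ≠ 0 := by
  have hp := (hU.ok.pr l (Finset.mem_union_right _ hl)).1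
  have e : U.N = U.NW * (∏ a ∈ U.L.C.erase l, a) * l := by
    rw [Su.N, hU.NC, mul_assoc, Finset.prod_erase_mul _ _ hl]
  have e' : U.N / l = U.NW * ∏ a ∈ U.L.C.erase l, a := by
    rw [e, Nat.mul_div_cancel _ hp.pos]
  have nd : ¬ l ∣ U.N / l := by
    rw [e', hp.dvd_mul, hU.NW l hp]
    rintro (h | h)
    · exact Finset.disjoint_left.1 hU.ok.dj h hl
    · obtain ⟨a, ha, e⟩ := (Prime.dvd_finsetProd_iff hp.prime _).1 h
      rw [Finset.mem_erase] at ha
      exact ha.1 ((Nat.prime_dvd_prime_iff_eq hp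
        (hU.ok.pr a (Finset.mem_union_right _ ha.2)).1).1 e).symm
  refine ⟨by rw [e']; exact e, nd, fun h => nd ?_⟩
  rw [h, Nat.zero_div]
  exact dvd_zero _

end ChR

/-- **row CH** -/
theorem chCG {O F : Type} [CommRing O] [IsDomain O] [IsDiscreteValuationRing O] [Co O] [Field F]
    [CharP F 2] {U : Su O F} [hC : ∀ l : U.L.C, Fact l.1.Prime] (hU : U.OkG) : CH U := by
  have key : ∀ l : U.L.C, ∃ C : P022D.Rep.Ch (ZMod l.1) F, ∀ x : ℕ,
      C.ψ ((U.N / l.1 * x : ℕ) : ZMod l.1) * U.S.red U.z ^ (U.N / l.1 * x) = 1 := by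
    intro l
    obtain ⟨hp, h2⟩ := hU.ok.pr l.1 (Finset.mem_union_right _ l.2)
    obtain ⟨e, nd, n0⟩ := ChR.facG hU l.2
    have pz : IsPrimitiveRoot U.z U.N := by
      refine IsPrimitiveRoot.of_map_of_injective (f := (Co.j : O →+* ℂ)) ?_ Co.inj
      rw [hU.z, ze, Int.cast_one, mul_one]
      exact Complex.isPrimitiveRoot_exp _ n0
    have py : IsPrimitiveRoot (U.z ^ (U.N / l.1)) l.1 :=
      pz.pow (Nat.pos_of_ne_zero n0) e
    have lF : (l.1 : F) ≠ 0 := fun h =>
      h2 ((Nat.prime_dvd_prime_iff_eq Nat.prime_two hp).1 ((CharP.cast_eq_zero_iff F 2 _).1 h)).symm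
    obtain ⟨C, hC⟩ := ChR.mk (F := F) l.1 lF (U.N / l.1)
      (fun h => nd ((ZMod.natCast_eq_zero_iff _ _).1 h)) (U.S.red U.z ^ (U.N / l.1))
      (by rw [← map_pow, ← map_pow, py.pow_eq_one, map_one]) (fun h => lF (by
        have s := congrArg U.S.red (py.geom_sum_eq_zero hp.one_lt)
        rw [map_sum, map_zero] at s
        simp only [map_pow, h, one_pow, Finset.sum_const, Finset.card_range, nsmul_eq_mul,
          mul_one] at s
        exact s))
    exact ⟨C, fun x => by rw [pow_mul]; exact hC x⟩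
  choose Cc h using key
  exact ⟨Cc, h⟩

end Vale.Agent.P022E.Fm
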