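import Vale.Agent.P022E.Fm.Cls
import Vale.Agent.P022G.Fp.Base
import Vale.Agent.P022G.Fp.FmBasic
import Vale.Agent.P022G.Fp.FmCen

/-!
# P022D, forms side: row CLS
-/

set_option linter.all false

noncomputable section

namespace Vale.Agent.P022E.Fm

open NumberField IsLocalRing
open Vale.Agent.P022 Vale.Agent.P022.H853 Vale.Agent.P022D.V Vale.Agent.P022E.V Vale.Agent.P027M.M
open Vale.Agent.P022D.Fm.Cen Vale.Agent.P022E.Fm.Cen

namespace Cls

variable {O F : Type} [CommRing O] [IsLocalRing O] [Co O] [Field F] [CharP F 2] {U : Su O F}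
  {M : ℕ} [NeZero M] {t : GQ → U.B M} {d : GQ →* (U.B M)ˣ}

/-- the determinant from the central character -/
theorem d_eqG (hU : U.OkG) (hN : U.N ∣ M) (h : U.Op t d) {v : U.GG M}
    (he : ep O (RD O) M (U.i + 1) v = v) {g : GQ}
    (hc : rt O (RD O) (dg (cyc M g) (cyc M g)) (v : P022D.Fm.AM O M) =
      U.om (cyc M g : ZMod M).val • (v : P022D.Fm.AM O M)) : (d g : U.B M) • v = U.dt g • v := by
  obtain ⟨a₀, h0⟩ := h.dF v
  obtain ⟨a, ha, -, e2⟩ := h.cn_dt_smulG hU hN v (a₀ + 1)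
  have ho : Odd (cyc (2 ^ a * M) g : ZMod (2 ^ a * M)).val := Nat.coprime_two_right.1
    ((ZMod.val_coe_unit_coprime _).coprime_dvd_right
      ((dvd_pow_self 2 (by omega)).mul_right M))
  refine Subtype.ext ?_
  rw [h0 g _ (cyc M g) ho (cyc_cast (Dvd.intro_left _ rfl) g).symm
    (P022E.Fm.Cen.cy_cyc (mul_dvd_mul_right (pow_dvd_pow 2 (by omega)) M) g), S2_apply, pw_apply,
    he, sub_self, smul_zero, add_zero, Sf_apply, hc,
    e2, Submodule.coe_smul, mul_comm (U.om _), mul_smul, ← Nat.cast_pow, Nat.cast_smul_eq_nsmul]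

variable {r n : ℕ} {q : Fin r → ℕ} {b : Fin r → (ZMod M)ˣ} {τ : Fin r → GQ}

/-- a submonoid which contains the generators contains all units which are `1` modulo `N` -/
theorem gen_NG (hU : U.OkG) (lv : Lv U r n M q b τ) (H : Submonoid (ZMod M)ˣ) (hb : ∀ i, b i ∈ H)
    (hp : ∀ c : (ZMod M)ˣ, P022D.V.Cg M U.N c 1 → c ^ 2 ^ n ∈ H) {a : (ZMod M)ˣ}
    (ha : P022D.V.Cg M U.N a 1) : a ∈ H := by
  have h0 := NeZero.ne M
  refine P022E.Fm.Cen.unit_gen H a fun l hl hlM c c1 c2 => ?_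
  by_cases hq : ∃ i, q i = l
  · obtain ⟨i, rfl⟩ := hq
    rw [lv.cn_proj_qG hU] at c2
    obtain ⟨k, x, hx, rfl⟩ := lv.gen i c (P022E.Fm.Cen.cg_one c2)
    exact H.mul_mem (H.pow_mem (hb i) k) (hp x (cg_dvd2 (lv.dvd_div i) hx))
  · have hd : ordProj[l] M ∣ U.N := by
      refine Nat.Coprime.dvd_of_dvd_mul_right (n := ∏ i, q i) ?_ (lv.eq ▸ Nat.ordProj_dvd M l)
      exact Nat.Coprime.pow_left _ (hl.coprime_iff_not_dvd.2 fun e => hq ((lv.cn_dvd_Q hl).1 e))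
    have c3 := c1.trans ((P022E.Fm.Cen.of_cg (y := 1) lv.dvd (by simpa using ha)).of_dvd hd)
    have := (Nat.modEq_and_modEq_iff_modEq_mul
      ((Nat.coprime_ordCompl hl h0).pow_left (M.factorization l))).1 ⟨c3, c2⟩
    rw [Nat.ordProj_mul_ordCompl_eq_self, ← ZMod.natCast_eq_natCast_iff, ZMod.natCast_zmod_val,
      Nat.cast_one] at this
    rw [show c = 1 from Units.ext this]
    exact H.one_mem

/-- the torus at the auxiliary primes fixes the vectors which are fixed by the generators -/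
theorem fix_dgG (hU : U.OkG) (lv : Lv U r n M q b τ) {v : P022D.Fm.AM O M}
    (h2 : v ∈ Iv O (RD O) (U.TQ M n)) (h3 : ∀ i, rt O (RD O) (dg 1 (b i)) v = v)
    (h4 : ∀ i, rt O (RD O) (dg (b i) (b i)⁻¹) v = v) {a c : (ZMod M)ˣ} (ha : P022D.V.Cg M U.N a 1)
    (hc : P022D.V.Cg M U.N c 1) : rt O (RD O) (dg a c) v = v := by
  have o : P022D.V.Cg M U.N ((1 : (ZMod M)ˣ) : ZMod M) 1 := cg_refl _
  have e1 : a ∈ fixM ⟨⟨fun a => dg a 1, dg_one⟩, fun x y => by rw [dg_mul, one_mul]⟩ v :=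
    gen_NG hU lv _ (fun i => by
      change rt O (RD O) (dg (b i) 1) v = v
      have := h4 i
      rwa [← h3 i, rt_rt, dg_mul, mul_one, inv_mul_cancel, h3 i] at this) (fun x hx => by
      change rt O (RD O) (dg (x ^ 2 ^ n) 1) v = v
      simpa using mem_TQ.1 h2 x 1 hx o) ha
  have e2 : c ∈ fixM ⟨⟨fun a => dg 1 a, dg_one⟩, fun x y => by rw [dg_mul, one_mul]⟩ v :=
    gen_NG hU lv _ h3 (fun x hx => by
      change rt O (RD O) (dg 1 (x ^ 2 ^ n)) v = v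
      simpa using mem_TQ.1 h2 1 x o hx) hc
  rw [← mul_one a, ← one_mul c, ← dg_mul, ← rt_rt, show rt O (RD O) (dg 1 c) v = v from e2]
  exact e1

end Cls

open Vale.Agent.P022D.Fm.Cls Vale.Agent.P022E.Fm.Cls

variable {O F : Type} [CommRing O] [IsLocalRing O] [Co O] [Field F] [CharP F 2] {U : Su O F}
  [hC : ∀ l : U.L.C, Fact l.1.Prime]

/-- **row CLS** -/
theorem clsCG (hU : U.OkG) : CLS U := by
  intro r n q P v hv
  have lv := P.lv
  have h := P.ok.op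
  have : NeZero P.M := ⟨lv.cn_M_neG hU⟩
  obtain ⟨⟨h1, hw⟩, h2⟩ := P022D.Fm.mem_of_sub hv.1
  have k : ∀ {a b : U.B P.M}, a - b ∈ P.X.JW → a • v = b • v := fun e => by
    have := hv.2 _ e
    rwa [sub_smul, sub_eq_zero] at this
  have h3 : ∀ l ∈ U.L.W, (P.X.d (U.L.τ l) : U.B P.M) • v = U.dt (U.L.τ l) • v :=
    fun l hl => k (Or.inr ⟨l, hl, rfl⟩)
  have he := cen_epG hU lv h h1 h2 h3
  have hQ : ∀ a : (ZMod P.M)ˣ, (∀ i, (a : ZMod P.M).val ≡ 1 [MOD q i]) →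
      a ∈ P022E.Fm.Cen.cenMG hU lv.dvd v := fun a ha =>
    cenG hU lv h h1 h2 h3 a fun i => ⟨1, by simpa using (ha i).symm⟩
  refine ⟨fun g hg => k (Or.inl ⟨g, hg, rfl⟩), fun g hg => cldG hU lv h h1 h2 h3 hg,
    (((All.div O P.M (lv.oddG hU) (lv.threeG hU)).2.2.2.1 _ _ (GG_le v.2)).2.2).2 he,
    mem_Ce.2 fun a ha => hQ a fun i => ?_, fun hu => ?_⟩
  · have e : P.M / U.N = ∏ i, q i :=
      Nat.div_eq_of_eq_mul_right (Nat.pos_of_ne_zero hU.cn_N_ne) lv.eq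
    exact (P022E.Fm.Cen.of_cg (y := 1) (Nat.div_dvd_of_dvd lv.dvd) (by simpa using ha)).of_dvd
      (e ▸ Finset.dvd_prod_of_mem q (Finset.mem_univ i))
  have f : ∀ {a c : (ZMod P.M)ˣ}, P022D.V.Cg P.M U.N a 1 → P022D.V.Cg P.M U.N c 1 →
      rt O (RD O) (dg a c) (v : P022D.Fm.AM O P.M) = v := P022E.Fm.Cls.fix_dgG hU lv h2
    (fun i => ((P.dia i).1 v).symm.trans (by rw [hu]))
    fun i => ((P.dia i).2 v).symm.trans (by rw [hu])
  have ce : ∀ a : (ZMod P.M)ˣ, a ∈ P022E.Fm.Cen.cenMG hU lv.dvd v := fun a =>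
    P022E.Fm.Cen.unit_gen _ a fun l hl hlM c _ c2 => by
      by_cases hN : l ∣ U.N
      · refine hQ c fun i => c2.of_dvd (Nat.dvd_ordCompl_of_dvd_not_dvd (lv.q_dvd i) fun e => ?_)
        exact lv.cn_q_NG hU i ((Nat.prime_dvd_prime_iff_eq hl (lv.pr i).1).1 e ▸ hN)
      · have c3 := P022E.Fm.Cen.cg_one (c2.of_dvd (Nat.dvd_ordCompl_of_dvd_not_dvd lv.dvd hN))
        change rt O (RD O) _ _ = _
        rw [f c3 c3, hU.cn_om_one lv.dvd c3, one_smul]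
  refine ⟨mem_Iv.2 fun g hg => ?_, mem_Ce.2 fun a _ => ce a,
    fun g => P022E.Fm.Cls.d_eqG hU lv.dvd h he (ce _)⟩
  obtain ⟨y, a, c, ha, hc, rfl⟩ := P022E.Fm.Cls.Bq_dec hg
  have := mem_WhP.1 hw (U.NW * y.val)
  rw [← mul_assoc, mul_comm U.NC, show U.NW * U.NC = U.N from rfl, pow_mul, hU.zN, one_pow,
    one_smul, Nat.cast_mul, ZMod.natCast_zmod_val] at this
  rw [← rt_rt, show rt O (RD O) (un ((U.N : ZMod P.M) * y)) (v : P022D.Fm.AM O P.M) = v from this, f ha hc]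

end Vale.Agent.P022E.Fm
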