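import Vale.Agent.P022E.Fm.Red
import Vale.Agent.P022G.Fp.Base

/-!
# P022D, forms side: the Whittaker forms modulo the uniformiser
-/

set_option linter.all false

open scoped MatrixGroups

noncomputable section

namespace Vale.Agent.P022E.Fm

open Vale.Agent.P022 Vale.Agent.P022D.V Vale.Agent.P022E.V Vale.Agent.P027M.M
open Vale.Agent.P022D.W.Step (kl Cs Dv mem_kl mem_kl1 cut_dv)

namespace Red

section abs

variable {T B G : Type} [CommRing T] [CommRing B] [AddCommGroup G] [Module B G] (φ : T →+* B)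
  (p : T) {K : Submodule B G}

end abs

section formal

variable {S R : Type} [CommRing S] [CommRing R] [Algebra S R] {M : ℕ}

end formal

variable {O F : Type} [CommRing O] [Field F] [Co O]

variable [IsLocalRing O] {U : Su O F} (hU : U.OkG)

include hU

theorem NC_neG : U.NC ≠ 0 := by
  rw [hU.NC]
  exact Finset.prod_ne_zero_iff.2 fun l hl =>
    (hU.ok.pr l (Finset.mem_union_right _ hl)).1.ne_zero

theorem z_powG : U.z ^ U.N = 1 := by
  have h0 : (U.N : ℂ) ≠ 0 := Nat.cast_ne_zero.2 (mul_ne_zero hU.NW0 (NC_neG hU))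
  apply (Co.inj : Function.Injective (Co.j : O →+* ℂ))
  rw [map_pow, hU.z, map_one, ze, ← Complex.exp_nat_mul, Int.cast_one, mul_one,
    mul_div_cancel₀ _ h0, Complex.exp_two_pi_mul_I]

variable {r n M : ℕ} {q : Fin r → ℕ} {b : Fin r → (ZMod M)ˣ} {τ : Fin r → GQ}
  (hL : Lv U r n M q b τ)

include hL

theorem M_neG : M ≠ 0 := by
  rw [hL.eq]
  exact mul_ne_zero (mul_ne_zero hU.NW0 (NC_neG hU))
    (Finset.prod_ne_zero_iff.2 fun i _ => (hL.pr i).1.ne_zero)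

theorem levG {l : ℕ} (hl : l ∈ U.L.C) : M / l = U.N / l * ∏ i, q i ∧ M / U.NC ∣ M / l ∧
    ¬ l ∣ M / l ∧ ∀ l' ∈ U.L.C, l' ≠ l → l' ∣ M / l := by
  have hp := (hU.ok.pr l (Finset.mem_union_right _ hl)).1
  have e : U.NC = l * ∏ k ∈ U.L.C.erase l, k := by
    rw [hU.NC, Finset.mul_prod_erase _ (fun k => k) hl]
  have e1 : U.N / l = U.NW * ∏ k ∈ U.L.C.erase l, k :=
    Nat.div_eq_of_eq_mul_right hp.pos (by rw [Su.N, e]; ring)
  have e2 : M / l = U.N / l * ∏ i, q i :=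
    Nat.div_eq_of_eq_mul_right hp.pos (by rw [e1, hL.eq, Su.N, e]; ring)
  have e3 : M / U.NC = U.NW * ∏ i, q i :=
    Nat.div_eq_of_eq_mul_right (Nat.pos_of_ne_zero (NC_neG hU)) (by rw [hL.eq, Su.N]; ring)
  refine ⟨e2, ⟨∏ k ∈ U.L.C.erase l, k, by rw [e3, e2, e1]; ring⟩, fun h => ?_, fun l' h1 h2 => ?_⟩
  · rw [e2, e1, hp.dvd_mul, hp.dvd_mul] at h
    rcases h with (h | h) | h
    · exact Finset.disjoint_left.1 hU.ok.dj ((hU.NW l hp).1 h) hl
    · obtain ⟨k, hk, h⟩ := hp.prime.exists_mem_finset_dvd h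
      rw [Finset.mem_erase] at hk
      exact hk.1 ((Nat.prime_dvd_prime_iff_eq hp
        (hU.ok.pr k (Finset.mem_union_right _ hk.2)).1).1 h).symm
    · obtain ⟨i, -, h⟩ := hp.prime.exists_mem_finset_dvd h
      refine (hL.pr i).2 ?_
      rw [← (Nat.prime_dvd_prime_iff_eq hp (hL.pr i).1).1 h, hU.ok.hT]
      simp [hl]
  · rw [e2, e1]
    exact ((Finset.dvd_prod_of_mem (fun k => k)
      (Finset.mem_erase.2 ⟨h2, h1⟩)).mul_left _).mul_right _

variable [hC : ∀ l : U.L.C, Fact l.1.Prime] [CharP F 2] {X : Dt U M n} (hX : X.Ok)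

include hX

/-- the unipotent elements at `l` -/
theorem rho_uG (l : U.L.C) (x : ℕ) (w : U.Wb M n) :
    (((X.E.ρ (Pi.mulSingle l ((U.bn l).u ((M / l.1 * x : ℕ) : ZMod l.1))) w : U.Wb M n) :
      U.GG M) : P022D.Fm.AM O M) = P022D.Fm.rD O (un ((M / l.1 * x : ℕ) : ZMod M)) (w : U.GG M) := by
  obtain ⟨-, h2, -, h4⟩ := levG hU hL l.2
  refine hX.act _ (un_Kq (h2.mul_right x)) _ (fun l' hl' => ?_) w
  rw [pr_un]
  by_cases e : l' = l
  · subst e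
    rw [Pi.mulSingle_eq_same]
    rfl
  · rw [Pi.mulSingle_eq_of_ne e, (ZMod.natCast_eq_zero_iff _ _).2
      ((h4 l'.1 l'.2 fun h => e (Subtype.ext h)).mul_right x), uG_zero, QuotientGroup.mk_one]

variable {Cc : ∀ l : U.L.C, P022D.Rep.Ch (ZMod l.1) F} (hCc : U.IsCh Cc)

include hCc

theorem wh_oneG (l : U.L.C) (x : ℕ) (w : U.Wb M n) :
    X.E.ρ (Pi.mulSingle l ((U.bn l).u ((M / l.1 * x : ℕ) : ZMod l.1))) w =
      X.E.sc ((Cc l).ψ ((M / l.1 * x : ℕ) : ZMod l.1)) w ↔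
    U.z ^ (M / l.1 * x) • rt O _ (un ((M / l.1 * x : ℕ) : ZMod M)) ((w : U.GG M) : P022D.Fm.AM O M) =
      (w : U.GG M) := by
  have e : (Cc l).ψ ((M / l.1 * x : ℕ) : ZMod l.1) * U.S.red (U.z ^ (M / l.1 * x)) = 1 := by
    rw [map_pow, (levG hU hL l.2).1, mul_assoc]
    exact hCc l _
  have e1 : ∀ v : U.Wb M n, (((X.E.sc (U.S.red (U.z ^ (M / l.1 * x))) v : U.Wb M n) : U.GG M) :
      P022D.Fm.AM O M) = U.z ^ (M / l.1 * x) • ((v : U.GG M) : P022D.Fm.AM O M) := fun v => by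
    rw [hX.sc]
    rfl
  have e2 := rho_uG hU hL hX l x w
  change _ ↔ U.z ^ (M / l.1 * x) • P022D.Fm.rD O _ _ = _
  rw [← e2, ← e1, ← Subtype.ext_iff, ← Subtype.ext_iff]
  constructor
  · intro h
    rw [h, ← Module.End.mul_apply, ← map_mul, mul_comm, e, map_one, Module.End.one_apply]
  · intro h
    conv_rhs => rw [← h, ← Module.End.mul_apply, ← map_mul, e, map_one, Module.End.one_apply]

/-- **the Gelfand-Graev type is the Whittaker condition** -/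
theorem mem_GG (w : U.Wb M n) : w ∈ X.E.Y (P022D.Rep.XG U.bn Cc).v ↔
    ((w : U.GG M) : P022D.Fm.AM O M) ∈ Wh O (RD O) M U.z := by
  constructor
  · intro h
    refine wh_of ({U.NC} ∪ Set.range fun l : U.L.C => M / l.1) U.NC (Or.inl rfl) (NC_neG hU)
      (fun p hp => ?_) ?_
    · by_cases hd : p ∣ U.NC
      · rw [hU.NC] at hd
        obtain ⟨l, hl, h⟩ := hp.prime.exists_mem_finset_dvd hd
        rw [(Nat.prime_dvd_prime_iff_eq hp (hC ⟨l, hl⟩).out).1 h]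
        exact ⟨_, Or.inr ⟨⟨l, hl⟩, rfl⟩, (levG hU hL hl).2.2.1⟩
      · exact ⟨_, Or.inl rfl, hd⟩
    · rintro _ (rfl | ⟨l, rfl⟩)
      · have h1 := (Submodule.mem_iInf _).1 (P022D.Fm.mem_of_sub w.2).1.1.2 1
        rw [mul_one, LinearMap.mem_ker, LinearMap.sub_apply, sub_eq_zero] at h1
        exact h1
      · have h1 := (wh_oneG hU hL hX hCc l 1 w).1
          ((X.E.kill_Ig (U.bn l) (Cc l) w).1 (h l) _)
        rwa [mul_one] at h1
  · intro h l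
    refine (X.E.kill_Ig (U.bn l) (Cc l) w).2 fun y => ?_
    have hu : ((M / l.1 : ℕ) : ZMod l.1) ≠ 0 := fun e =>
      (levG hU hL l.2).2.2.1 ((ZMod.natCast_eq_zero_iff _ _).1 e)
    have e : y = ((M / l.1 * (y / ((M / l.1 : ℕ) : ZMod l.1)).val : ℕ) : ZMod l.1) := by
      rw [Nat.cast_mul, ZMod.natCast_zmod_val, mul_div_cancel₀ _ hu]
    rw [e]
    exact (wh_oneG hU hL hX hCc l _ w).2 (h _)

theorem y1_GG : X.Y1 (P022D.Rep.XG U.bn Cc).v =
    kl (U.sb M (U.Zw M n)) {algebraMap O (U.B M) U.ϖ} := by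
  haveI : NeZero M := ⟨M_neG hU hL⟩
  ext v
  rw [mem_kl1]
  constructor
  · rintro ⟨w, hw, rfl⟩
    refine ⟨fun h hh => ?_, Subtype.ext (P022D.Fm.mem_of_sub w.2).2⟩
    have h1 := (w.2 h hh).1
    exact ⟨⟨h1.1.1, wh_HA ⟨_, hL.eq⟩ (z_powG hU) h (cm_le _ hh) _
      ((mem_GG hU hL hX hCc w).1 hw)⟩, h1.2⟩
  · rintro ⟨h1, h2⟩
    refine ⟨⟨v, fun h hh => ?_⟩, (mem_GG hU hL hX hCc _).2 (P022D.Fm.mem_of_sub h1).1.2, rfl⟩
    have h3 := h1 h hh
    refine ⟨⟨⟨h3.1.1, (Submodule.mem_iInf _).2 fun x => ?_⟩, h3.2⟩, ?_⟩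
    · rw [LinearMap.mem_ker, LinearMap.sub_apply, sub_eq_zero]
      exact h3.1.2 _
    · have h4 : U.ϖ • (v : P022D.Fm.AM O M) = 0 := congrArg Subtype.val h2
      rw [SetLike.mem_coe, P022D.Fm.mem_Tor, ← map_smul, h4, map_zero]

/-- **RED** -/
theorem y_GG : X.Y (P022D.Rep.XG U.bn Cc).v = X.Wc 1 := by
  ext v
  rw [Dt.Y, Dt.Wc, Dt.Wh, y1_GG hU hL hX hCc, pow_one, mem_kl, mem_kl1, mem_kl1, mem_kl]
  tauto

/-- the field `red` -/
theorem redG {T : Type} [CommRing T] (φ : T →+* U.B M) (p : T) (hp : φ p = algebraMap O _ U.ϖ)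
    (j : ℕ) : ∃ e : P022D.Fm.Mt φ (X.Y (P022D.Rep.XG U.bn Cc).v) →ₗ[T] P022D.Fm.Mt φ (X.Wc (j + 1)),
      Function.Injective e ∧ ∀ w, w ∈ LinearMap.range e ↔ p • w = 0 :=
  red_abs φ p j (by rw [y_GG hU hL hX hCc, Dt.Wc, pow_one, hp]) (by rw [hp]; exact map_pow _ _ _)

end Red

end Vale.Agent.P022E.Fm
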