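import Vale.Agent.P022E.Fm.Dvw
import Vale.Agent.P022G.Fp.Base
import Vale.Agent.P022G.Fp.FmRed

/-!
# P022D, forms side: rows DVW and RED
-/

set_option linter.all false

open scoped MatrixGroups

noncomputable section

namespace Vale.Agent.P022E.Fm

open Vale.Agent.P022 Vale.Agent.P022D.V Vale.Agent.P022E.V Vale.Agent.P027M.M
open Vale.Agent.P022D.W.Step (kl Cs Dv mem_kl mem_kl1 cut_dv)

namespace Red

variable {O F : Type} [CommRing O] [Field F] [Co O] {U : Su O F}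

variable [IsLocalRing O] [hC : ∀ l : U.L.C, Fact l.1.Prime] [CharP F 2]
  {Cc : ∀ l : U.L.C, P022D.Rep.Ch (ZMod l.1) F} {r n : ℕ} {q : Fin r → ℕ}

theorem gk_GG (hU : U.OkG) (hc : U.IsCh Cc) (P : Lq U r n q) :
    P.Gk (P.X.Y1 (P022D.Rep.XG U.bn Cc).v) := by
  refine ⟨{un 1}, fun _ => U.z ^ (U.N - 1), ?_, fun v => ?_⟩
  · rintro _ rfl
    exact ⟨0, by simp [un_coe, Matrix.det_fin_two_of]⟩
  · rw [← wh_iff (N := U.N) (mul_ne_zero hU.NW0 (NC_neG hU)) (z_powG hU)]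
    constructor
    · rintro ⟨w, hw, rfl⟩
      exact ⟨w.2, (mem_GG hU P.lv P.ok hc w).1 hw⟩
    · rintro ⟨h1, h2⟩
      exact ⟨⟨v, h1⟩, (mem_GG hU P.lv P.ok hc _).2 h2, rfl⟩

end Red

variable {O F : Type} [CommRing O] [IsLocalRing O] [Co O] [Field F] [CharP F 2] {U : Su O F}
  [hC : ∀ l : U.L.C, Fact l.1.Prime] {Cc : ∀ l : U.L.C, P022D.Rep.Ch (ZMod l.1) F}

/-- **row DVW** -/
theorem dvwCG (hU : U.OkG) (hc : U.IsCh Cc) (hH : HC U) (hL : LQ U) (hD : DV0 U) (hT : CUT U)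
    (hZ : NZ0 U) : DVW U := by
  intro r n q P
  have hm := hL.1 _ _ _ _ _ _ P.lv
  obtain ⟨ν, a, ha, h1, h2⟩ := hT r n q P
  refine cut_dv (hD _ n hm)
    (fun v _ => (hH _ hm.odd (hm.le.trans (Nat.le_of_dvd hm.odd.pos hm.dvd))).tor v)
    (fun c h v hv => h1 c h v (Red.sb_mono (Red.zw_le _ _) hv)) ?_
  rw [← Red.y1_GG hU P.lv P.ok hc]
  exact h2 _ (Red.gk_GG hU hc P) (Red.cs_G hZ P ha)

/-- **row RED** -/
theorem redCG (hU : U.OkG) (hc : U.IsCh Cc) (hD : DVW U) : RED U Cc := by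
  intro r n q P
  have e := Red.ev_cc P.X P.u U.ϖ
  have h1 : P.X.Wh ≤ P.X.Z := fun v hv => ⟨Red.sb_mono (Red.zw_le _ _) hv.1, hv.2⟩
  refine ⟨⟨fun I v hv => ⟨Red.sb_mono inf_le_left (Red.y1_le P.X I hv.1), hv.2⟩, h1,
    fun j v hv => h1 hv.1⟩, fun i w => ?_, Red.redG hU P.lv P.ok hc P.ev _ e n,
    Red.piC P.X P.ev _ e _, Red.flat P.X (hD r n q P) P.ev _ e n⟩
  obtain ⟨w, hw⟩ := w
  refine Subtype.ext ?_
  change P.X.ev P.u (P022D.As.cc U.ϖ) • w = 0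
  rw [e]
  exact Subtype.ext (P022D.Fm.mem_of_sub (Red.y1_le P.X _ hw.1)).2

end Vale.Agent.P022E.Fm
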