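import Vale.Agent.P022E.Fm.FibI
import Vale.Agent.P022G.Fp.Base

/-!
# P022D, forms side: the primary part and the change of level
-/

set_option linter.all false

open scoped MatrixGroups

noncomputable section

namespace Vale.Agent.P022E.Fm

open Vale.Agent.P022 Vale.Agent.P022D.V Vale.Agent.P022E.V Vale.Agent.P027M.M
open Vale.Agent.P022D.G (Wd wT wS Inert)

variable {O F : Type} [CommRing O] [IsLocalRing O] [Co O] [Field F] [CharP F 2] {U : Su O F}

theorem gg_iflG (hU : U.OkG) (hG : GOP U) {M : ℕ} (L : U.Lm M) :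
    (∀ v ∈ U.GG U.N, ifl O (RD O) L.dvd v ∈ U.GG M) ∧
    ∀ v ∈ U.GG M, v ∈ Iv O (RD O) (Kq M U.N) → ∃ v₀ ∈ U.GG U.N, ifl O (RD O) L.dvd v₀ = v :=
  ⟨fun v hv => ((gg_ifl' hG L.dvd L.odd L.le).1 v hv).1, (gg_ifl' hG L.dvd L.odd L.le).2⟩

end Vale.Agent.P022E.Fm
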