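import Vale.Agent.P022E.Fm.Hz
import Vale.Agent.P022G.Fp.Base

/-!
# P022D, forms side: rows HZ and EXF
-/

set_option linter.all false

open scoped MatrixGroups

noncomputable section

namespace Vale.Agent.P022E.Fm

open Vale.Agent.P022 Vale.Agent.P022D.V Vale.Agent.P022E.V Vale.Agent.P027M.M
open Vale.Agent.P022D.W.Step (kl Cs Dv)
open Vale.Agent.P022D.As (Tg cc tt dd yy dl nD)

namespace Hz

section abs

variable {ι : Type} [Fintype ι] [DecidableEq ι] {F : Type} [Field F] [CharP F 2] {Γ : ι → Type}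
  [∀ i, Group (Γ i)] [∀ i, Fintype (Γ i)] {B W : Type} [CommRing B] [AddCommGroup W] [Module B W]
  (E : P022D.Rep.Act F Γ B W) {r n : ℕ} {u : Fin r ⊕ Fin r → B}

end abs

section sub

variable {ι : Type} [Fintype ι] [DecidableEq ι] {F : Type} [Field F] [CharP F 2] {Γ : ι → Type}
  [∀ i, Group (Γ i)] [∀ i, Fintype (Γ i)] {B G : Type} [CommRing B] [AddCommGroup G] [Module B G]
  {Wb : Submodule B G} (E : P022D.Rep.Act F Γ B Wb) {r n : ℕ} {u : Fin r ⊕ Fin r → B}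

end sub

variable {O F : Type} [CommRing O] [IsLocalRing O] [Co O] [Field F] [CharP F 2] {U : Su O F}
  [hC : ∀ l : U.L.C, Fact l.1.Prime] {Cc : ∀ l : U.L.C, P022D.Rep.Ch (ZMod l.1) F}
  {r n : ℕ} {q : Fin r → ℕ} (P : Lq U r n q)

/-- every element of the product of the projective groups acts as a translation -/
theorem ex_trG (hU : U.OkG) (hm : U.Lm P.M) (hD : DIC U Cc) (γ : ∀ l, U.Gam l) :
    ∃ h : GM P.M, P022D.V.Cg P.M U.NW (h : Matrix (Fin 2) (Fin 2) (ZMod P.M)).det 1 ∧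
      ∀ w : U.Wb P.M n, (((P.X.E.ρ γ w : U.Wb P.M n) : U.GG P.M) : P022D.Fm.AM O P.M) =
        P022D.Fm.rD O h (w : U.GG P.M) := by
  obtain ⟨d1, d2, -⟩ := hD P.M n hm P.X P.ok
  let H : Submonoid (∀ l, U.Gam l) :=
    { carrier := {γ | ∃ h : GM P.M, P022D.V.Cg P.M U.NW (h : Matrix (Fin 2) (Fin 2) (ZMod P.M)).det 1 ∧
        ∀ w : U.Wb P.M n, (((P.X.E.ρ γ w : U.Wb P.M n) : U.GG P.M) : P022D.Fm.AM O P.M) =
          P022D.Fm.rD O h (w : U.GG P.M)}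
      one_mem' := ⟨1, ⟨0, by simp⟩, fun w => by
        rw [map_one]
        exact funext fun g => congrArg _ (mul_one g).symm⟩
      mul_mem' := by
        rintro a b ⟨h, ⟨s, hs⟩, e⟩ ⟨h', ⟨t, ht⟩, e'⟩
        refine ⟨h * h', ⟨s + t + U.NW * s * t, ?_⟩, fun w => ?_⟩
        · rw [Units.val_mul, Matrix.det_mul, hs, ht]
          ring
        · rw [map_mul, Module.End.mul_apply, e, e']
          exact funext fun g => congrArg _ (mul_assoc g h h') }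
  refine Submonoid.pi_mem_of_mulSingle_mem (H := H) γ fun l => ?_
  obtain ⟨g, hg⟩ := QuotientGroup.mk_surjective (γ l)
  refine ⟨P022D.Rep.emb (d1 l) g, cg_dv (Nat.dvd_div_of_mul_dvd ?_) (det_Kq (P022D.Rep.emb_mem _ g)),
    hg ▸ d2 l (d1 l) g⟩
  refine Dvd.dvd.trans ?_ hm.dvd
  rw [mul_comm, Su.N, hU.NC]
  exact mul_dvd_mul_left _ (Finset.dvd_prod_of_mem (fun l => l) l.2)

theorem gkG (hU : U.OkG) (hm : U.Lm P.M) (hD : DIC U Cc) (S : Subgroup (∀ l, U.Gam l)) :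
    P.Gk ((Kf P.X.E S P.u).map (U.Wb P.M n).subtype) := by
  choose h h1 h2 using ex_trG P hU hm hD
  refine ⟨h '' S ∪ Set.range (Sum.elim (fun i => dg 1 (P.b i)) fun i => dg (P.b i) (P.b i)⁻¹ :
    Fin r ⊕ Fin r → GM P.M), fun _ => 1, ?_, fun v => ⟨?_, fun ⟨a, b⟩ => ⟨⟨v, a⟩,
      ⟨fun γ k => Subtype.ext (Subtype.ext ?_), fun j => Subtype.ext (Subtype.ext ?_)⟩, rfl⟩⟩⟩
  · rintro _ (⟨γ, -, rfl⟩ | ⟨i | i, rfl⟩)
    · exact h1 γ
    · have := P.lv.b1 i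
      refine cg_dv (Nat.dvd_div_of_mul_dvd ?_) (show P022D.V.Cg P.M (P.M / q i) _ 1 by
        simpa [dg_coe, Matrix.det_fin_two] using this)
      rw [P.lv.eq, mul_comm]
      exact mul_dvd_mul (dvd_mul_right _ _) (Finset.dvd_prod_of_mem q (Finset.mem_univ i))
    · exact ⟨0, by simp [dg_coe, Matrix.det_fin_two]⟩
  · rintro ⟨w, ⟨a, b⟩, rfl⟩
    refine ⟨w.2, ?_⟩
    rintro _ (⟨γ, k, rfl⟩ | ⟨j, rfl⟩)
    · exact ((h2 γ w).symm.trans (congrArg (fun x : U.Wb P.M n => ((x : U.GG P.M) : P022D.Fm.AM O P.M))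
        (a γ k))).trans (one_smul _ _).symm
    · refine Eq.trans ?_ ((congrArg (fun x : U.Wb P.M n => ((x : U.GG P.M) : P022D.Fm.AM O P.M))
        (b j)).trans (one_smul _ _).symm)
      rcases j with i | i
      exacts [((P.dia i).1 w).symm, ((P.dia i).2 w).symm]
  · exact (h2 γ ⟨v, a⟩).trans ((b _ (Or.inl ⟨γ, k, rfl⟩)).trans (one_smul _ _))
  · refine Eq.trans ?_ ((b _ (Or.inr ⟨j, rfl⟩)).trans (one_smul _ _))
    rcases j with i | i
    exacts [(P.dia i).1 v, (P.dia i).2 v]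

end Hz

variable {O F : Type} [CommRing O] [IsLocalRing O] [Co O] [Field F] [CharP F 2] {U : Su O F}
  [hC : ∀ l : U.L.C, Fact l.1.Prime] {Cc : ∀ l : U.L.C, P022D.Rep.Ch (ZMod l.1) F}

/-- **row HZ** -/
theorem hzCG (hU : U.OkG) (hL : LQ U) (hD : DIC U Cc) (hA : DIA U) (hN : NZ0 U) (hK : CUT U) :
    HZ U := fun r n q P => by
  classical
  obtain ⟨ν, a, h1, h2, h3⟩ := hK r n q P
  have hu : ∀ s (w : U.Wb P.M n), P.u s ^ 2 ^ n • w = w := fun s w =>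
    Subtype.ext (((hA r n q P).1 w (Hz.wb_le P w.2)).2.2 s)
  obtain ⟨x, y⟩ := Hz.hig_cut (J := P.X.JW) (ν := ν) P.X.E hu
    (fun c hc w => Subtype.ext (h2 c hc w (Hz.wb_le P w.2)))
    (fun S s hs w a1 a2 => ((hN r n q P a h1).2 S s hs w a1 a2).1)
    fun S => Hz.cs_map.1 (h3 _ (Hz.gkG P hU (hL.1 _ _ _ _ _ _ P.lv) hD S) (Hz.cs_map.2
      (Hz.cs_norm P.X.E hu (s := Finset.univ.filter fun γ => γ ∈ S) (by simp)
        fun w a1 a2 => ((hN r n q P a h1).2 S _ (by simp) w a1 a2).2)))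
  exact ⟨x, fun I => Hz.free_sub P.X.E (y I)⟩

end Vale.Agent.P022E.Fm
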