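import Vale.Agent.P022E.Fm.Nz
import Vale.Agent.P022G.Fp.Base

/-!
# P022D, forms side: the modules of type `J` are not zero
-/

set_option linter.all false

noncomputable section

namespace Vale.Agent.P022E.Fm

open Vale.Agent.P022 Vale.Agent.P022D.V Vale.Agent.P022E.V Vale.Agent.P027M.M Vale.Agent.P022D.Rep
  Vale.Agent.P022E.Rep
open Vale.Agent.P027M.S (mx)
open Vale.Agent.P022D.W.Step (kl)

namespace Nz

section pre

variable {ι : Type} [Fintype ι] [DecidableEq ι] {F : Type} [Field F] {K : ι → Type}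
  [∀ i, Field (K i)] [∀ i, Fintype (K i)] [∀ i, Fintype (PG (K i))] {T W : Type} [Ring T]
  [AddCommGroup W] [Module T W] (E : Act F (fun i => PG (K i)) T W)

end pre

variable {O F : Type} [CommRing O] [Field F] [IsLocalRing O] [Co O] {U : Su O F} (hU : U.OkG)
include hU

theorem red_zeroG {c : O} : U.S.red c = 0 ↔ U.ϖ ∣ c := by
  rw [hU.ok.ker, IsLocalRing.mem_maximalIdeal, mem_nonunits_iff]
  exact ⟨hU.uni.dvd c, fun h e => hU.uni.nu (isUnit_of_dvd_unit h e)⟩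

theorem unit_iffG {c : O} : IsUnit c ↔ U.S.red c ≠ 0 := by
  rw [Ne, hU.ok.ker, IsLocalRing.mem_maximalIdeal, mem_nonunits_iff, not_not]

theorem red_trG (g : GQ) : U.S.red (U.L.r g).trace = (mx U.S.rb g).trace := by
  rw [← hU.ok.lift, Matrix.trace_fin_two, Matrix.trace_fin_two, map_add]
  rfl

theorem det_oneG (g : GQ) : U.ϖ ∣ (U.L.r g).det - 1 := by
  rw [← red_zeroG hU, map_sub, map_one, RingHom.map_det, RingHom.mapMatrix_apply, hU.ok.lift,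
    hU.ok.det, sub_self]

theorem opnG : IsOpen {g : GQ | (U.L.r g).map (Ideal.Quotient.mk (Ideal.span {U.ϖ})) = 1} := by
  have e : IsLocalRing.maximalIdeal O ^ 1 = Ideal.span {U.ϖ} := by
    ext c
    rw [pow_one, ← hU.ok.ker, red_zeroG hU, Ideal.mem_span_singleton]
  have := hU.ok.cont 1
  rwa [e] at this

theorem C_primeG {l : ℕ} (h : l ∈ U.L.C) : l.Prime ∧ l ≠ 2 := hU.ok.pr l (Finset.mem_union_right _ h)

theorem dvd_NCG {l : ℕ} (hl : l.Prime) : l ∣ U.NC ↔ l ∈ U.L.C := by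
  rw [hU.NC, (Nat.prime_iff.1 hl).dvd_finset_prod_iff]
  refine ⟨fun ⟨p, hp, e⟩ => ?_, fun h => ⟨l, h, dvd_rfl⟩⟩
  rwa [(Nat.prime_dvd_prime_iff_eq hl (C_primeG hU hp).1).1 e]

theorem copG : Nat.Coprime U.NW U.NC := Nat.coprime_of_dvd fun p hp h1 h2 =>
  Finset.disjoint_left.1 hU.ok.dj ((hU.NW p hp).1 h1) ((dvd_NCG hU hp).1 h2)

theorem dvd_NG {l : ℕ} (hl : l.Prime) (h : l ∣ U.N) : l ∈ U.L.W ∪ U.L.C := by
  rw [Finset.mem_union, ← hU.NW l hl, ← dvd_NCG hU hl]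
  exact (Nat.Prime.dvd_mul hl).1 h

theorem NC_posG : 0 < U.NC := by
  rw [hU.NC]
  exact Finset.prod_pos fun l hl => (C_primeG hU hl).1.pos

theorem N_posG : 0 < U.N := Nat.mul_pos (Nat.pos_of_ne_zero hU.NW0) (NC_posG hU)

theorem N_oddG : Odd U.N := by
  rw [← Nat.not_even_iff_odd, even_iff_two_dvd]
  exact fun h => (hU.ok.pr 2 (dvd_NG hU Nat.prime_two h)).2 rfl

theorem out_TG {l : ℕ} (hl : l.Prime) (h : l ∉ U.S.T) : ¬ l ∣ 2 * U.N := fun e => h (by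
  rw [hU.ok.hT]
  rcases (Nat.Prime.dvd_mul hl).1 e with e | e
  · rw [(Nat.prime_dvd_prime_iff_eq hl Nat.prime_two).1 e]
    simp
  · exact Finset.mem_insert_of_mem (Finset.mem_insert_of_mem (dvd_NG hU hl e)))

theorem three_ofG {l n : ℕ} (h : l ∈ U.L.W ∪ U.L.C) (hn : 0 < n) (e : l ∣ n) : 3 ≤ n := by
  have a := hU.ok.pr l h
  have := a.1.two_le
  have := Nat.le_of_dvd hn e
  omega

theorem spG {l : ℕ} (h : l ∈ U.L.C) : Sp U.N (U.N / l) l := by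
  have e : U.N = (U.NW * ∏ p ∈ U.L.C.erase l, p) * l := by
    rw [Su.N, hU.NC, ← Finset.prod_erase_mul _ _ h, mul_assoc]
  have a := (C_primeG hU h).1
  have e' : U.N / l = U.NW * ∏ p ∈ U.L.C.erase l, p := by
    rw [e, Nat.mul_div_cancel _ a.pos]
  refine ⟨by rw [e', ← e], ?_, a, N_oddG hU⟩
  rw [e']
  refine Nat.Coprime.mul_left ((copG hU).coprime_dvd_right ((dvd_NCG hU a).2 h))
    (Nat.Coprime.prod_left fun p hp => ?_)
  exact (Nat.coprime_primes (C_primeG hU (Finset.mem_of_mem_erase hp)).1 a).2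
    (Finset.ne_of_mem_erase hp)

theorem dvd_divG {l m : ℕ} (h : l ∈ U.L.C) (hm : m ∣ U.N) (nd : ¬ l ∣ m) : m ∣ U.N / l := by
  rw [(spG hU h).eq] at hm
  exact ((Nat.Prime.coprime_iff_not_dvd (C_primeG hU h).1).2 nd).symm.dvd_of_dvd_mul_right hm

theorem NW_dvdG {l : ℕ} (h : l ∈ U.L.C) : U.NW ∣ U.N / l :=
  dvd_divG hU h (dvd_mul_right _ _) fun e =>
    Finset.disjoint_left.1 hU.ok.dj ((hU.NW l (C_primeG hU h).1).1 e) h

theorem N_threeG : 3 ≤ U.N := by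
  rcases hU.W3 with ⟨l, h⟩ | ⟨l, h, -⟩
  · exact three_ofG hU (Finset.mem_union_left _ h) (N_posG hU)
      (((hU.NW l (hU.ok.pr l (Finset.mem_union_left _ h)).1).2 h).mul_right _)
  · exact three_ofG hU (Finset.mem_union_right _ h) (N_posG hU)
      (((dvd_NCG hU (C_primeG hU h).1).2 h).mul_left _)

theorem z_powG : U.z ^ U.N = 1 := Co.inj (by rw [map_pow, hU.z, map_one, ze_one (N_posG hU)])

theorem syG [CharP F 2] [Finite F] : ∃ ℓ₀, P022D.Gt.Lv U.N ℓ₀ ∧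
    P022D.Fm.Sy U.ϖ U.L.r (fun p => U.tr (P022D.Fm.fr p)) ℓ₀ ∧ IsUnit (U.tr (P022D.Fm.fr ℓ₀)) := by
  obtain ⟨l, φ, h1, h2, h3, h4⟩ := G6.ex_frob U.S hU.ok.dh.opn U.S.T
  have e : U.S.red (U.tr (P022D.Fm.fr l)) ≠ 0 := by
    rwa [Su.tr, frob_eq _ h1 (hU.unr l h1 h2) (fr_frob h1) h3, red_trG hU]
  refine ⟨l, ⟨N_oddG hU, N_threeG hU, h1, out_TG hU h1 h2⟩, ⟨opnG hU, det_oneG hU,
    ⟨U.S.T, fun p ψ a b c => ?_⟩, ?_⟩, (unit_iffG hU).2 e⟩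
  · rw [Su.tr, frob_eq _ a (hU.unr p a b) (fr_frob a) c, sub_self]
    exact dvd_zero _
  · haveI := Fintype.ofFinite F
    refine ⟨Fintype.card F - 1, Nat.sub_pos_of_lt Fintype.one_lt_card, ?_⟩
    rw [← red_zeroG hU, map_sub, map_pow, map_one, FiniteField.pow_card_sub_one_eq_one _ e, sub_self]

theorem ch_unG (y : ℕ) : U.z ^ y * ch U (un (y : ZMod U.N)) = 1 := by
  have e : ((un (y : ZMod U.N) : GM U.N) : Matrix (Fin 2) (Fin 2) (ZMod U.N)) 0 1 = y := rfl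
  have a : 1 + (U.N - 1) = U.N := by have := N_posG hU; omega
  rw [ch, e, ZMod.val_natCast, pow_mod (z_powG hU) (Nat.mod_modEq y U.N).symm, ← pow_add,
    ← one_add_mul, a, pow_mul, z_powG hU, one_pow]

theorem mem_Eg_iffG {R : Type} [CommRing R] [Algebra O R] {x : FT U.N R} :
    x ∈ Eg O R (HU U) (ch U) ↔
      ∀ y : ℕ, U.z ^ (U.NC * y) • rt O R (un ((U.NC * y : ℕ) : ZMod U.N)) x = x := by
  rw [mem_Eg, HU, Set.forall_mem_range]
  refine forall_congr' fun y => ⟨fun h => ?_, fun h => ?_⟩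
  · rw [h, smul_smul, ch_unG hU, one_smul]
  · conv_rhs => rw [← h, smul_smul, mul_comm, ch_unG hU, one_smul]

section mem

variable (hR : ROOT O) (hP : PAR O) (hD : DIV O) {x : FT U.N (RR U.ϖ)} (hx : x ∈ GE U)
include hR hP hD hx

theorem m_XDG : ml O U.N (dv U.ϖ) x ∈ XD1 O U.N (U.i + 1) ∧ U.ϖ • ml O U.N (dv U.ϖ) x = 0 := by
  have h2 : U.ϖ ∣ 2 := hU.uni.dvd 2 (hR _ (N_oddG hU)).2.2.2.2.2.2.2.2.1
  have a := (P022D.Fm.mem_Gd.1 hx).1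
  refine (((hD _ (N_oddG hU) (N_threeG hU)).2.1 _ _ hU.uni.ne).2 _).2 ⟨x, ⟨?_, a.2⟩, rfl⟩
  rw [(hP _ (N_oddG hU) (N_threeG hU)).2 _ _ h2]
  exact a.1

theorem m_oddG {k : ℕ} (hk : Odd k) {y : FT U.N (RD O)} (hy : U.ϖ • y = 0) : k • y = y := by
  have h2 : U.ϖ ∣ 2 := hU.uni.dvd 2 (hR _ (N_oddG hU)).2.2.2.2.2.2.2.2.1
  obtain ⟨c, rfl⟩ := hk
  rw [← Nat.cast_smul_eq_nsmul O, P022D.Fm.smul_of_dvd hy (b := 1) (by
    push_cast
    rw [add_sub_cancel_right]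
    exact h2.mul_right _), one_smul]

theorem m_pwG (p : ℕ) : pw O _ U.N U.i p (ml O U.N (dv U.ϖ) x) = ml O U.N (dv U.ϖ) x := by
  have x1 := (m_XDG hU hR hP hD hx).1
  have e := (((hD _ (N_oddG hU) (N_threeG hU)).2.2.2.1 U.i _ (Submodule.mem_sup_left x1)).2.2).1 x1
  rw [pw_apply, e, sub_self, smul_zero, add_zero]

theorem m_scG (a : (ZMod U.N)ˣ) :
    rt O _ (dg a a) (ml O U.N (dv U.ϖ) x) = ml O U.N (dv U.ϖ) x := by
  rw [← ml_rt, (P022D.Fm.mem_Gd.1 hx).2.2.1]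

theorem m_TG (ℓ : PA U.N) : T2 O _ U.i ℓ.1 (P022D.Fm.uP ℓ) (ml O U.N (dv U.ϖ) x) =
    U.tr (P022D.Fm.fr ℓ.1) • ml O U.N (dv U.ϖ) x := by
  have l2 : ℓ.1 ≠ 2 := fun e => ℓ.2.2 ((dvd_of_eq e).mul_right _)
  rw [T2_apply, m_pwG hU hR hP hD hx, m_oddG hU hR hP hD hx (ℓ.2.1.odd_of_ne_two l2).pow
    (by rw [← map_smul, (m_XDG hU hR hP hD hx).2, map_zero]), ← map_smul,
    ← (P022D.Fm.mem_Gd.1 hx).2.2.2 ℓ.1 (P022D.Fm.uP ℓ) ℓ.2.1 l2 rfl, ml_Tf, Tf_apply, pow_zero, one_smul]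

theorem m_SG (ℓ : PA U.N) (g : GQ) : S2 O _ U.i ℓ.1 (P022D.Fm.uP ℓ) (ml O U.N (dv U.ϖ) x) =
    U.dt g • ml O U.N (dv U.ϖ) x := by
  have l2 : ℓ.1 ≠ 2 := fun e => ℓ.2.2 ((dvd_of_eq e).mul_right _)
  have x0 := (m_XDG hU hR hP hD hx).2
  rw [S2_apply, m_pwG hU hR hP hD hx, Sf_apply, m_scG hU hR hP hD hx,
    m_oddG hU hR hP hD hx (ℓ.2.1.odd_of_ne_two l2).pow x0]
  exact ((P022D.Fm.smul_of_dvd x0 (det_oneG hU g)).trans (one_smul _ _)).symm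

theorem m_GGG : ml O U.N (dv U.ϖ) x ∈ U.GG U.N := by
  refine ⟨Submodule.mem_sup_left (m_XDG hU hR hP hD hx).1, ?_⟩
  simp only [P022D.Fm.Pm, Submodule.mem_iInf, SetLike.mem_coe]
  refine fun ℓ _ => ⟨P022D.Fm.mem_Nl.2 ⟨1, ?_⟩, P022D.Fm.mem_Nl.2 ⟨1, ?_⟩⟩
  · rw [pow_one, LinearMap.sub_apply, sub_eq_zero]
    exact (LinearMap.congr_fun (FreeAlgebra.lift_ι_apply _ _) _).trans (m_TG hU hR hP hD hx ℓ)
  · rw [pow_one, LinearMap.sub_apply, sub_eq_zero]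
    exact (LinearMap.congr_fun (FreeAlgebra.lift_ι_apply _ _) _).trans (m_SG hU hR hP hD hx ℓ _)

theorem m_HAG {h : Module.End O (P022D.Fm.AM O U.N)} (hh : h ∈ P022D.Fm.cm (P022D.Fm.HA O U.N U.N U.i)) :
    ∃ c : O, h (ml O U.N (dv U.ϖ) x) = c • ml O U.N (dv U.ϖ) x := by
  have h' : h ∈ P022D.Fm.HA O U.N U.N U.i := by
    unfold P022D.Fm.cm at hh
    split_ifs at hh
    exacts [hh, (bot_le : ⊥ ≤ P022D.Fm.HA O U.N U.N U.i) hh]
  clear hh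
  have mul : ∀ a b : Module.End O (P022D.Fm.AM O U.N), ∀ y, (∃ c : O, a y = c • y) →
      (∃ c : O, b y = c • y) → ∃ c : O, (a * b) y = c • y := by
    rintro a b y ⟨c, hc⟩ ⟨e, he⟩
    exact ⟨e * c, by rw [Module.End.mul_apply, he, map_smul, hc, smul_smul]⟩
  have add : ∀ a b : Module.End O (P022D.Fm.AM O U.N), ∀ y, (∃ c : O, a y = c • y) →
      (∃ c : O, b y = c • y) → ∃ c : O, (a + b) y = c • y := by
    rintro a b y ⟨c, hc⟩ ⟨e, he⟩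
    exact ⟨c + e, by rw [LinearMap.add_apply, he, hc, add_smul]⟩
  induction h' using Algebra.adjoin_induction with
  | mem a ha =>
    rcases ha with ⟨Q, rfl⟩ | ⟨a, d, ⟨t, ht⟩, rfl⟩
    · induction Q using FreeAlgebra.induction with
      | grade0 r => exact ⟨r, by
          rw [eq_intCast, map_intCast, Module.End.intCast_apply, Int.cast_smul_eq_zsmul]⟩
      | grade1 s =>
        rcases s with ℓ | ℓ
        · exact ⟨_, (LinearMap.congr_fun (FreeAlgebra.lift_ι_apply _ _) _).trans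
            (m_TG hU hR hP hD hx ℓ)⟩
        · exact ⟨_, (LinearMap.congr_fun (FreeAlgebra.lift_ι_apply _ _) _).trans
            (m_SG hU hR hP hD hx ℓ 1)⟩
      | mul a b ha hb => rw [map_mul]; exact mul _ _ _ ha hb
      | add a b ha hb => rw [map_add]; exact add _ _ _ ha hb
    · rw [ZMod.natCast_self, zero_mul, add_zero] at ht
      rw [Units.ext ht]
      exact ⟨1, (m_scG hU hR hP hD hx d).trans (one_smul _ _).symm⟩
  | algebraMap r => exact ⟨r, rfl⟩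
  | add a b _ _ ha hb => exact add _ _ _ ha hb
  | mul a b _ _ ha hb => exact mul _ _ _ ha hb

theorem m_WbG (n : ℕ) : (⟨_, m_GGG hU hR hP hD hx⟩ : U.GG U.N) ∈ U.Wb U.N n := by
  intro h hh
  obtain ⟨c, hc⟩ := m_HAG hU hR hP hD hx hh
  have x0 := (m_XDG hU hR hP hD hx).2
  haveI : NeZero U.N := ⟨(N_posG hU).ne'⟩
  rw [hc]
  refine Submodule.smul_mem _ c ⟨⟨⟨?_, ?_⟩, (mem_Iv (S := O) (R := RD O)).2 ?_⟩, x0⟩
  · rintro _ ⟨a, -, rfl⟩
    rw [m_scG hU hR hP hD hx]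
    exact ((P022D.Fm.smul_of_dvd x0 (hU.omr _ (ZMod.val_coe_unit_coprime a))).trans (one_smul _ _)).symm
  · simp only [Su.WhP, Submodule.mem_iInf, SetLike.mem_coe, LinearMap.mem_ker, LinearMap.sub_apply,
      sub_eq_zero]
    exact fun y => (mem_Eg_iffG hU (R := RD O)).1 (Eg_ml (dv U.ϖ) (P022D.Fm.mem_Gd.1 hx).2.1) y
  · rintro _ ⟨a, d, ⟨s, hs⟩, ⟨t, ht⟩, rfl⟩
    rw [ZMod.natCast_self, zero_mul, add_zero] at hs ht
    rw [show a = 1 from Units.ext hs, show d = 1 from Units.ext ht, one_pow, dg_one, rt_one]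

omit hx in
/-- the eigenvectors in the carrier -/
def phiG (n : ℕ) : GE U →+ U.Wb U.N n where
  toFun x := ⟨⟨_, m_GGG hU hR hP hD x.2⟩, m_WbG hU hR hP hD x.2 n⟩
  map_zero' := Subtype.ext (Subtype.ext (map_zero _))
  map_add' x y := Subtype.ext (Subtype.ext (map_add _ _ _))

theorem m_eigG {t : GQ → U.B U.N} {d : GQ →* (U.B U.N)ˣ} (op : U.Op t d) (g : GQ) :
    t g • (⟨_, m_GGG hU hR hP hD hx⟩ : U.GG U.N) = U.tr g • ⟨_, m_GGG hU hR hP hD hx⟩ ∧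
    (d g : U.B U.N) • (⟨_, m_GGG hU hR hP hD hx⟩ : U.GG U.N) =
      U.dt g • ⟨_, m_GGG hU hR hP hD hx⟩ := by
  have law : P022D.G.Law (fun g => (t g).op) (fun g => (d g : U.B U.N).op) := by
    refine ⟨?_, fun g h => by rw [op.tf.comm], fun g h => ?_, by rw [map_one]; rfl,
      fun g h => by rw [map_mul]; rfl, fun v => ?_⟩
    · rw [op.tf.one, ← one_add_one_eq_two, ← one_add_one_eq_two]
      rfl
    · exact congrArg P022D.Fm.BT.op (op.tf.mul g h)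
    · obtain ⟨V, a, b, -, c⟩ := op.opn v
      exact ⟨V, a, b, c⟩
  refine eig_all law (opnG hU) (Subtype.ext (m_XDG hU hR hP hD hx).2) U.S.T
    (fun p φ hp hn hφ => ⟨Subtype.ext ?_, Subtype.ext ?_⟩) g
  · refine (op.frT ⟨p, hp, out_TG hU hp hn⟩ φ hφ _).trans ((m_TG hU hR hP hD hx _).trans ?_)
    rw [Su.tr, frob_eq _ hp (hU.unr p hp hn) (fr_frob hp) hφ]
    rfl
  · exact (op.frS ⟨p, hp, out_TG hU hp hn⟩ φ hφ _).trans (m_SG hU hR hP hD hx _ φ)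

end mem

end Nz

open Vale.Agent.P022D.Fm.Nz Vale.Agent.P022E.Fm.Nz

variable {O F : Type} [CommRing O] [Field F] [IsLocalRing O] [Co O]

/-- **non vanishing**: an eigenvector of type `J` -/
theorem nz_ofG (hV : P022D.Fm.Vr O) (hP : PAR O) (hD : DIV O) (hG : P022D.Gt.GT O) {U : Su O F} (hU : U.OkG)
    [hC : ∀ l : U.L.C, Fact l.1.Prime] [CharP F 2] [Finite F] (hs : Seed U) {n : ℕ}
    (X : Dt U U.N n) (hX : X.Ok) (Cc : ∀ l : U.L.C, Ch (ZMod l.1) F) (J : Finset U.L.C)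
    (hJ : ∀ l : U.L.C, Loc.Rm U.S.rb (U.L.τ l) → l ∈ J) :
    ∃ w ∈ X.Y (XJ U.bn Cc J).v, w ≠ 0 ∧
      ∀ g, X.t g • w = U.tr g • w ∧ (X.d g : U.B U.N) • w = U.dt g • w := by
  classical
  have hR := hV.root
  obtain ⟨v, hv, v0, vB, vK⟩ := hs
  obtain ⟨ℓ₀, lv, hS, -⟩ := P022E.Fm.Nz.syG hU
  have h := fun l : U.L.C => P022E.Fm.Nz.spG hU l.2
  have inj := (hD _ (P022E.Fm.Nz.N_oddG hU) (P022E.Fm.Nz.N_threeG hU)).1 _ hU.uni.ne
  have ram : ∀ l : U.L.C, Loc.Rm U.S.rb (U.L.τ l) → ∀ x ∈ P022E.Fm.Nz.GE U,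
      x ∈ Iv O _ (Kq U.N (U.N / l)) → x = 0 := by
    intro l hl x hx xK
    obtain ⟨g, hg⟩ : ∃ g, (mx U.S.rb (g * U.L.τ l)).trace ≠ (mx U.S.rb g).trace := hl
    have hl' := Finset.mem_union_right U.L.W l.2
    have a := hX.op.ur _ _ (h l) (U.L.τ l)
      ⟨_, (hU.ok.hP l hl').1, (hU.ok.hP l hl').2, (hU.ok.tm l hl').tau⟩
      ⟨_, P022E.Fm.Nz.m_GGG hU hR hP hD hx⟩ (Iv_ml _ xK) g
    rw [(P022E.Fm.Nz.m_eigG hU hR hP hD hx hX.op _).1, (P022E.Fm.Nz.m_eigG hU hR hP hD hx hX.op _).1] at a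
    have u : IsUnit (U.tr (g * U.L.τ l) - U.tr g) := by
      rw [P022E.Fm.Nz.unit_iffG hU, map_sub, Su.tr, Su.tr, P022E.Fm.Nz.red_trG hU, P022E.Fm.Nz.red_trG hU]
      exact sub_ne_zero.2 hg
    have b : (⟨_, P022E.Fm.Nz.m_GGG hU hR hP hD hx⟩ : U.GG U.N) = 0 :=
      u.smul_eq_zero.1 (by rw [sub_smul]; exact sub_eq_zero.2 a)
    exact inj ((congrArg Subtype.val b).trans (map_zero _).symm)
  have h3 : ∀ l : U.L.C, ¬ l.1 ∣ U.N0 → 3 ≤ U.N / l := by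
    intro l hl
    have pos : 0 < U.N / l := Nat.pos_of_mul_pos_right ((h l).eq ▸ P022E.Fm.Nz.N_posG hU)
    rcases hU.W3 with ⟨p, hp⟩ | ⟨p, hp, e⟩
    · exact P022E.Fm.Nz.three_ofG hU (Finset.mem_union_left _ hp) pos
        (((hU.NW p (hU.ok.pr p (Finset.mem_union_left _ hp)).1).2 hp).trans (P022E.Fm.Nz.NW_dvdG hU l.2))
    · refine P022E.Fm.Nz.three_ofG hU (Finset.mem_union_right _ hp) pos (P022E.Fm.Nz.dvd_divG hU l.2
        (((P022E.Fm.Nz.dvd_NCG hU (P022E.Fm.Nz.C_primeG hU hp).1).2 hp).mul_left _) fun e' => v0 ?_)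
      have : l = ⟨p, hp⟩ :=
        Subtype.ext ((Nat.prime_dvd_prime_iff_eq (P022E.Fm.Nz.C_primeG hU l.2).1 (P022E.Fm.Nz.C_primeG hU hp).1).1 e')
      subst this
      exact ram ⟨p, hp⟩ e v hv (vK _ hp hl)
  obtain ⟨x, hx, x0⟩ := P022D.Fm.raiseT hV hU.uni (P022E.Fm.Nz.N_threeG hU) (fun l : U.L.C => l.1)
    (fun l => U.N / l.1) Subtype.val_injective h (H := P022E.Fm.Nz.HU U) (χ := P022E.Fm.Nz.ch U)
    (lam := fun p => U.tr (P022D.Fm.fr p)) (by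
      rintro l _ ⟨y, rfl⟩
      exact P022E.Fm.Nz.un_K (((P022E.Fm.Nz.dvd_NCG hU (P022E.Fm.Nz.C_primeG hU l.2).1).2 l.2).mul_right _))
    U.S.red U.S.surj Cc (P022E.Fm.Nz.toPre X.E) (P022E.Fm.Nz.phiG hU hR hP hD n)
    (fun x y e => Subtype.ext (inj (congrArg (fun w : U.Wb U.N n => w.1.1) e))) (by
      intro l g x y e
      have eW : U.N / U.NC = U.NW := Nat.mul_div_cancel _ (P022E.Fm.Nz.NC_posG hU)
      refine Subtype.ext (Subtype.ext (Eq.trans ?_ (hX.act (emb (h l) g)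
        (eW ▸ Kq_mono (P022E.Fm.Nz.NW_dvdG hU l.2) (emb_mem _ g)) _ (fun k hk => ?_) _).symm))
      · show ml O U.N (dv U.ϖ) y = rt O _ _ (ml O U.N (dv U.ϖ) x)
        rw [e, ml_rt]
      · show (Pi.mulSingle l (QuotientGroup.mk g) : ∀ l, U.Gam l) k = _
        by_cases e : k = l
        · subst e
          rw [Pi.mulSingle_eq_same, pr_emb]
        · rw [Pi.mulSingle_eq_of_ne e, P022E.Fm.Nz.pr_one hk (Kq_mono (P022E.Fm.Nz.dvd_divG hU l.2 hk fun e' => e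
            (Subtype.ext ((Nat.prime_dvd_prime_iff_eq (P022E.Fm.Nz.C_primeG hU l.2).1
              (P022E.Fm.Nz.C_primeG hU k.2).1).1 e').symm)) (emb_mem _ g))]
          rfl)
    (fun o x => (Subtype.ext (Subtype.ext (map_smul _ _ _))).trans (hX.sc o _).symm)
    J (Finset.univ.filter fun l => l.1 ∣ U.N0)
    (fun l hl => hJ l (hU.ram l l.2 (Finset.mem_filter.1 hl).2)) hv v0
    (fun l hl => vB l l.2 (Finset.mem_filter.1 hl).2)
    (fun l hl => vK l l.2 fun e => hl (Finset.mem_filter.2 ⟨Finset.mem_univ _, e⟩))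
    (fun l hl => ram l (hU.ram l l.2 (Finset.mem_filter.1 hl).2))
    (fun l _ hl => h3 l fun e => hl (Finset.mem_filter.2 ⟨Finset.mem_univ _, e⟩)) (by
      intro l _ hl f hf hx u hu
      have hl' := Finset.mem_union_right U.L.W l.2
      refine P022D.Fm.tz_of hR hP hD hG hU.uni hS (h l).dvd lv
        (h3 l fun e => hl (Finset.mem_filter.2 ⟨Finset.mem_univ _, e⟩)) (P022E.Fm.Nz.C_primeG hU l.2).1
        (P022E.Fm.Nz.C_primeG hU l.2).2 (φ := U.L.φ l)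
        ⟨_, (hU.ok.hP l hl').1, (hU.ok.hP l hl').2, (hU.ok.tm l hl').frob⟩ ?_ hf hx u hu
      rw [← P022E.Fm.Nz.red_zeroG hU, P022E.Fm.Nz.red_trG hU]
      refine hU.ok.uni l l.2 _ ?_
      exact P022D.W.phi_mem (P022E.Fm.Nz.C_primeG hU l.2).1 (hU.ok.hP l hl').1 (hU.ok.tm l hl').frob)
  have eg := P022E.Fm.Nz.m_eigG hU hR hP hD x.2 hX.op
  refine ⟨(P022E.Fm.Nz.phiG hU hR hP hD n x).1, ⟨⟨_, P022E.Fm.Nz.toPre_Y X.E hx, rfl⟩, ?_⟩,
    fun e => x0 (Subtype.ext e), eg⟩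
  rintro c (⟨g, -, rfl⟩ | ⟨l, -, rfl⟩)
  · rw [sub_smul, sub_eq_zero]
    exact (eg g).1
  · rw [sub_smul, sub_eq_zero]
    exact (eg _).2

end Vale.Agent.P022E.Fm
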