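import Vale.Agent.P022E.Fm.Forms0
import Vale.Agent.P022G.Fp.Base
import Vale.Agent.P022G.Fp.FmAc0
import Vale.Agent.P022G.Fp.FmAsm
import Vale.Agent.P022G.Fp.FmBigr
import Vale.Agent.P022G.Fp.FmChR
import Vale.Agent.P022G.Fp.FmCls
import Vale.Agent.P022G.Fp.FmCut
import Vale.Agent.P022G.Fp.FmDia
import Vale.Agent.P022G.Fp.FmDic
import Vale.Agent.P022G.Fp.FmDt0
import Vale.Agent.P022G.Fp.FmDvw
import Vale.Agent.P022G.Fp.FmFibZ
import Vale.Agent.P022G.Fp.FmGmr
import Vale.Agent.P022G.Fp.FmGopC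
import Vale.Agent.P022G.Fp.FmHc
import Vale.Agent.P022G.Fp.FmHz
import Vale.Agent.P022G.Fp.FmNonv
import Vale.Agent.P022G.Fp.FmNwf
import Vale.Agent.P022G.Fp.FmPrj
import Vale.Agent.P022G.Fp.FmRows
import Vale.Agent.P022G.Fp.FmSb

/-!
# P022D, forms side: all rows from the last ones
-/

set_option linter.all false

noncomputable section

namespace Vale.Agent.P022E.Fm

theorem rw_ofG {O F : Type} [CommRing O] [IsDomain O] [IsDiscreteValuationRing O] [P022D.Core.Coef O]
    [P022D.V.Co O] [Field F] [Finite F] [CharP F 2] {U : Su O F} [∀ l : U.L.C, Fact l.1.Prime]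
    (hU : U.OkG) {Cc : ∀ l : U.L.C, P022D.Rep.Ch (ZMod l.1) F} (hc : U.IsCh Cc) (nz : NZ0 U) :
    Rw U Cc := by
  have hH := hcCG hU
  have lq := lqCG hU
  have dia := diaCG hU
  have cls := clsCG hU
  have dic := dicCG hU hc hH
  have cut := cutCG hU hH lq
  have hz := hzCG hU lq dic dia nz cut
  have gt := Gt.gt0 O
  have nw := P022D.Nw.newdC O
  have sb := sbrG (P022D.V.All.gen O) (P022D.V.All.div O) (P022D.V.par O) (P022D.V.All.descv O) gt hU hc
  have gop := gopCG hU
  have red := redCG hU hc (dvwCG hU hc hH lq (dv0CG hU) cut nz)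
  exact
    { hc := hH
      gop := gop
      lq := lq
      act := Ac.actHG hU
      gmr := gmrCG hU hH lq cls dia
      dia := dia
      exf := exfH dia hz
      red := red
      cyf := cyfCG hU cls
      urf := urf6G hU lq dic
      nwf := nwfCG hU nw gt lq dic hz
      fib := fibCG hU gt gop dia cls Cc
      dsc := dscCG hU gt gop dia cls
      sbr := sb
      dt0 := dt0CG hU cls red
      big := (bigrCG hU nz cut hz sb (nonvCG hU Cc)).bigr }

/-- **the forms side from the row `NZ0`** -/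
theorem forms_nzG (h : ∀ (O F : Type) [CommRing O] [IsDomain O] [IsDiscreteValuationRing O]
    [P022D.Core.Coef O] [P022D.V.Co O] [Field F] [Finite F] [CharP F 2] (U : Su O F)
    [∀ l : U.L.C, Fact l.1.Prime], U.OkG → NZ0 U) : FORMSG :=
  forms_ofG fun O F _ _ _ _ _ _ _ _ U _ hU => ⟨chCG hU, fun _ hc => rw_ofG hU hc (h O F U hU)⟩

end Vale.Agent.P022E.Fm
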