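import Vale.Agent.P022E.Fm.NmH
import Vale.Agent.P022G.Fp.Base
import Vale.Agent.P022G.Fp.FmAc0

/-!
# P022D, forms side: invariants are norms (the step HIGN)
-/

set_option linter.all false

open scoped MatrixGroups

noncomputable section

namespace Vale.Agent.P022E.Fm.Nm

open Classical Vale.Agent.P022 Vale.Agent.P022D.V Vale.Agent.P022E.V Vale.Agent.P027M.M
open Vale.Agent.P022D.Fm.Ac Vale.Agent.P022E.Fm.Ac Vale.Agent.P022D.Fm.Pj Vale.Agent.P022E.Fm.Pj

variable {O F : Type} [CommRing O] [Field F] [Co O] {U : Su O F} {M n : ℕ}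
  [hC : ∀ l : U.L.C, Fact l.1.Prime]

section sec

variable (h : P022E.Fm.Ac.Lk U M) {ι : Type} [Fintype ι] (p : ι → ℕ) (a d : ι → (ZMod M)ˣ)

variable {p a d}

end sec

end Vale.Agent.P022E.Fm.Nm

namespace Vale.Agent.P022E.Fm.Nm

open Classical Vale.Agent.P022 Vale.Agent.P022D.V Vale.Agent.P022E.V Vale.Agent.P027M.M
open Vale.Agent.P022D.Fm.Ac Vale.Agent.P022E.Fm.Ac Vale.Agent.P022D.Fm.Pj Vale.Agent.P022E.Fm.Pj

variable {O F : Type} [CommRing O] [IsDomain O] [IsDiscreteValuationRing O] [P022D.Core.Coef O] [Co O]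
  [Field F] [CharP F 2] {U : Su O F} [hC : ∀ l : U.L.C, Fact l.1.Prime]

/-- **HIGN** -/
theorem hignG (hU : U.OkG) (hW : WHP U) : HIGN U := by
  intro M n hL X hX ι _ p a d u hp hu h1 h2 h3 h4 S t ht w hS hw
  have h := P022E.Fm.Ac.lk_ofG hU hL
  haveI := h.nz
  haveI : ∀ s, NeZero (p s) := fun s => ⟨hp s⟩
  haveI := P022E.Fm.Pj.finq hU.uni
  haveI := Fintype.ofFinite (GM M)
  obtain ⟨e, e1, e2, e3, e4, e5⟩ := hW M hL
  let ρ : GM M →* Module.End O (P022D.Fm.AM O M) := ⟨⟨P022D.Fm.rD O, rD_one⟩, rD_mul⟩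
  let Hm : Subgroup (GM M) :=
    { carrier := {g | Commute e (ρ g)}
      one_mem' := by
        show Commute e (ρ 1)
        rw [map_one]
        exact Commute.one_right _
      mul_mem' := fun {x y} hx hy => by
        show Commute e (ρ (x * y))
        rw [map_mul]
        exact Commute.mul_right hx hy
      inv_mem' := fun {x} hx => Commute.units_inv_right (u := ρ.toHomUnits x) hx }
  have act : ∀ (γ : ∀ l, U.Gam l) (w : U.Wb M n),
      (((X.E.ρ γ w : U.Wb M n) : U.GG M) : P022D.Fm.AM O M) = P022D.Fm.rD O (sB h γ) (w : U.GG M) := fun γ w =>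
    hX.act _ (h.emP_Kq _) γ (fun l hl => by rw [h.pr_emP, QuotientGroup.out_eq']) w
  have hw' := h.wb.1 w.2
  obtain ⟨v, hv, f1, f2⟩ := (isSec (n := n) h h1 h2 h3 h4).norm ρ (fun _ => (1 : O)) (Hm := Hm)
    (by
      rintro _ ⟨_, _, ⟨c, a, d, -, k2, k3, rfl, rfl⟩, rfl⟩
      exact e5 _ _ (cg_mul2 (cg_refl _) (cg_trans (P022E.Fm.Pj.cgp k2 _) (cg_symm (P022E.Fm.Pj.cgp k3 _)))))
    (fun x => Hm.mul_mem (e5 _ _ (sA_cg h1 _)) (e4 _ (h.emP_Kq _)))
    (fun _ _ _ _ => (one_mul _).symm) (U.GG M ⊓ P022D.Fm.Tor (P022D.Fm.AM O M) U.ϖ ⊓ U.WhP M)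
    (fun g hg v hv => ⟨⟨GG_rD h.odd h.three g v hv.1.1, P022D.Fm.mem_Tor.2 (by
      rw [← map_smul, P022D.Fm.mem_Tor.1 hv.1.2, map_zero])⟩, by
        have k := e1 (ρ g v)
        rwa [← Module.End.mul_apply, (show Commute e (ρ g) from hg).eq, Module.End.mul_apply,
          e2 v hv.2] at k⟩)
    (fun _ _ _ => one_smul _ _) rfl (v := ((w : U.GG M) : P022D.Fm.AM O M))
    ⟨⟨(w : U.GG M).2, hw'.2⟩, hw'.1.1.2⟩
    (fun H' s' hs' _ hm hf => by
      obtain ⟨v, k1, k2, k3⟩ := Pj.nrm h.odd h.three hU.uni (P022E.Fm.Pj.hn2 hU.uni) hU.uni.ne H' s' hs'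
        (fun _ => (1 : O)) rfl (fun _ _ _ _ => (one_mul _).symm) (w : U.GG M).2 hw'.2 hf
      refine ⟨e v, ⟨⟨e3 v k1, P022D.Fm.mem_Tor.2 (by rw [← map_smul, k2, map_zero])⟩, e1 v⟩, ?_⟩
      rw [← e2 _ hw'.1.1.2]
      conv_lhs => rw [k3]
      rw [map_sum]
      refine Finset.sum_congr rfl fun g hg => ?_
      rw [map_smul]
      exact congrArg _ (LinearMap.congr_fun (show Commute e (ρ g) from hm ((hs' g).1 hg)).eq v))
    ((⊤ : Subgroup _).prod S) (Finset.univ ×ˢ t)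
    (fun x => by simp only [Finset.mem_product, Finset.mem_univ, Subgroup.mem_prod,
      Subgroup.mem_top, ht])
    (fun g hg => by
      obtain ⟨c, hc, k, hk, rfl⟩ := Hd_eq hg
      rw [map_mul, Module.End.mul_apply, one_smul]
      exact (congrArg _ ((P022E.Fm.Ac.mem_Zp.1 hw'.1).2.2 k hk)).trans (P022E.Fm.Ac.Wb_cenG hU h hc hw'.1 hw'.2))
    (fun x hx => by
      rw [sec, map_mul, Module.End.mul_apply]
      have k1 : ρ (sB h x.2) (w : U.GG M) = (w : U.GG M) :=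
        (act _ w).symm.trans (by rw [hS _ hx.2])
      rw [k1]
      refine (prod_coe hu _ w).symm.trans ?_
      congr 2
      exact Finset.prod_induction _ (fun c : U.B M => c • w = w)
        (fun x y hx hy => by rw [mul_smul, hy, hx]) (one_smul _ _) fun s _ => by
          induction (x.1 s).toAdd.val with
          | zero => rw [pow_zero, one_smul]
          | succ j ih => rw [pow_succ, mul_smul, hw, ih])
  have hz : v ∈ U.Zp M n := by
    refine P022E.Fm.Ac.mem_Zp.2 ⟨fun c hc => ?_, mem_WhP.1 hv.2, fun g hg => (f1 g (TQ_Hd hg)).trans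
      (one_smul _ _)⟩
    obtain ⟨y, hy⟩ := hU.omr _ ((ZMod.val_coe_unit_coprime c).coprime_dvd_right h.dvd)
    rw [eq_add_of_sub_eq hy, add_smul, mul_comm, mul_smul, P022D.Fm.mem_Tor.1 hv.1.2, smul_zero, zero_add]
    exact f1 _ (sc_Hd hc)
  refine ⟨⟨⟨v, hv.1.1⟩, h.wb.2 ⟨hz, hv.1.2⟩⟩, Subtype.ext (Subtype.ext ?_)⟩
  have e6 : (∏ s, ∑ j ∈ Finset.range (p s), u s ^ j) =
      ∑ δ : ∀ s, Multiplicative (ZMod (p s)), ∏ s, u s ^ (δ s).toAdd.val := by
    rw [← Fintype.piFinset_univ, ← Finset.prod_univ_sum (fun _ => Finset.univ)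
      fun s (x : Multiplicative (ZMod (p s))) => u s ^ x.toAdd.val]
    exact Finset.prod_congr rfl fun s _ => sum_zm _ _
  rw [f2, e6, Finset.sum_smul, Finset.sum_product, Submodule.coe_sum, Submodule.coe_sum]
  refine Finset.sum_congr rfl fun δ _ => ?_
  rw [prod_coe hu, Submodule.coe_sum, Submodule.coe_sum, map_sum]
  refine Finset.sum_congr rfl fun γ _ => ?_
  rw [act, sec, map_mul]
  rfl

end Vale.Agent.P022E.Fm.Nm
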