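import Vale.Agent.P022E.Fm.NmW
import Vale.Agent.P022G.Fp.Base
import Vale.Agent.P022G.Fp.FmAc0

/-!
# P022D, forms side: the projector to the Whittaker vectors
-/

set_option linter.all false

noncomputable section

namespace Vale.Agent.P022E.Fm.Nm

open Vale.Agent.P022 Vale.Agent.P027M.M Vale.Agent.P022D.V Vale.Agent.P022E.V

variable {O F : Type} [CommRing O] [Field F] [Co O] {U : Su O F} {M : ℕ}

section av

variable [NeZero M] (hN : U.N ∣ M) (hz : U.z ^ U.N = 1)

end av

/-- **the projector** -/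
theorem whpG [IsLocalRing O] (hU : U.OkG) : WHP U := fun M L => by
  have h := Ac.lk_ofG hU L
  have := h.nz
  obtain ⟨c, hc⟩ := (P022D.V.root O M L.odd).2.2.2.1.exists_left_inv
  refine ⟨c • av h.dvd h.zN, fun v => Submodule.smul_mem _ _ (av_mem _ _ v), fun v hv => ?_,
    fun v hv => Submodule.smul_mem _ _ ?_, fun g hg => Commute.smul_left ?_ c,
    fun a d e => Commute.smul_left ?_ c⟩
  · rw [LinearMap.smul_apply, av_id _ _ hv, smul_smul, hc, one_smul]
  · rw [av_apply]
    exact Submodule.sum_mem _ fun x _ => Submodule.smul_mem _ _ (GG_rD h.odd h.three _ v hv)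
  · refine av_comm _ _ (c := 1) (cg_refl _) fun x => ?_
    rw [Units.val_one, one_mul]
    exact (Ac.kq_comm h.eq.dvd (Ac.un_Kq _ _) hg).symm
  · refine av_comm _ _ (Ac.cg_div e) fun x => ?_
    rw [Gn.dg_un, mul_assoc, mul_comm x]

end Vale.Agent.P022E.Fm.Nm
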