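import Vale.Agent.P022E.Fm.Gop
import Vale.Agent.P022G.Fp.Base
import Vale.Agent.P022G.Fp.FmOpA

/-!
# P022D, forms side: row GOP
-/

set_option linter.all false

open IsLocalRing
open scoped MatrixGroups NumberField Pointwise

noncomputable section

namespace Vale.Agent.P022E.Fm

open Vale.Agent.P022 Vale.Agent.P022D.V Vale.Agent.P022E.V Vale.Agent.P022.H853
open Vale.Agent.P022D.G (Wd wT wS Inert)
open Vale.Agent.P027M.S (mx)
open Vale.Agent.P022D.Gt (Xo Ga)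

namespace OpP

variable {O F : Type} [CommRing O] [Co O] [Field F] {M : ℕ}

/-- the operators are congruent to the values at the point -/
theorem nilBG [IsLocalRing O] {U : Su O F} (hU : U.OkG) {B Y : Type} [CommRing B] [Algebra O B]
    [AddCommGroup Y] [Module B Y] {t : GQ → B} {d : GQ →* Bˣ} (tf : H346.TF t d) (S : Finset ℕ)
    (v : Y) (opn : ∃ V : Subgroup GQ, V.Normal ∧ IsOpen (V : Set GQ) ∧
      ∀ u ∈ V, (d u : B) • v = v ∧ ∀ g, t (g * u) • v = t g • v)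
    (h0 : ∃ k : ℕ, algebraMap O B U.ϖ ^ k • v = 0)
    (fr' : ∀ (l : ℕ) φ, l.Prime → l ∉ S → IsFrob l φ →
      (∃ k : ℕ, (t φ - algebraMap O B (U.tr φ)) ^ k • v = 0) ∧
      ∃ k : ℕ, ((d φ : B) - algebraMap O B (U.dt φ)) ^ k • v = 0) (g : GQ) :
    ∃ k : ℕ, (t g - algebraMap O B (U.tr g)) ^ k • v = 0 ∧
      ((d g : B) - algebraMap O B (U.dt g)) ^ k • v = 0 := by
  let I := (Ideal.torsionOf B Y v).radical
  have mI : ∀ x : B, x ∈ I ↔ ∃ k : ℕ, x ^ k • v = 0 := fun x => Iff.rfl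
  obtain ⟨V, n, o, e⟩ := opn
  obtain ⟨l, φ, k, hl, hS, hφ, hu⟩ := P022D.G.frob (V ⊓ U.S.rb.ker) inferInstance
    (o.inter hU.ok.dh.opn) g S
  obtain ⟨a, b⟩ := fr' l φ hl hS hφ
  rw [← mI, ← Ideal.Quotient.eq] at a b
  let π := Ideal.Quotient.mk I
  have kt : ∀ k : ℕ, π (t (φ ^ k)) = π (algebraMap O B (U.tr (φ ^ k))) ∧
      π (t (φ ^ (k + 1))) = π (algebraMap O B (U.tr (φ ^ (k + 1)))) := fun k => by
    induction k with
    | zero =>
      refine ⟨?_, by rw [zero_add, pow_one]; exact a⟩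
      rw [pow_zero, tf.one, Su.tr, map_one, Matrix.trace_one, Fintype.card_fin, map_natCast,
        Nat.cast_ofNat]
    | succ k ih =>
      refine ⟨ih.2, ?_⟩
      have x := ih.1
      have y := ih.2
      unfold Su.tr Su.dt at *
      rw [P022D.G.SubA.step tf, tf_mat]
      simp only [map_sub, map_mul]
      rw [x, y, show π _ = π _ from a, show π _ = π _ from b]
  have kd : π (d (φ ^ k) : B) = π (algebraMap O B (U.dt (φ ^ k))) := by
    unfold Su.dt at *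
    rw [map_pow, map_pow, Units.val_pow_eq_pow_val, Matrix.det_pow, map_pow, map_pow, map_pow,
      show π _ = π _ from b]
  have er : U.S.rb g = U.S.rb (φ ^ k) := by
    have := (Subgroup.mem_inf.1 hu).2
    rw [MonoidHom.mem_ker, map_mul, map_inv, inv_mul_eq_one] at this
    exact this
  have hp : ∀ x y : O, U.ϖ ∣ x - y → π (algebraMap O B x) = π (algebraMap O B y) := by
    rintro x y ⟨c, hc⟩
    rw [Ideal.Quotient.eq, ← map_sub, hc, map_mul]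
    exact I.mul_mem_right _ ((mI _).2 h0)
  have eg : φ ^ k = g * (g⁻¹ * φ ^ k) := by rw [mul_inv_cancel_left]
  have e1 : π (t g) = π (t (φ ^ k)) := by
    rw [Ideal.Quotient.eq, mI]
    exact ⟨1, by rw [pow_one, sub_smul, eg, (e _ hu.1).2, sub_self]⟩
  have e2 : π (d g : B) = π (d (φ ^ k) : B) := by
    rw [Ideal.Quotient.eq, mI]
    exact ⟨1, by rw [pow_one, sub_smul, eg, map_mul, Units.val_mul, mul_smul, (e _ hu.1).1, sub_self]⟩
  obtain ⟨k1, h1⟩ := (mI _).1 (Ideal.Quotient.eq.1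
    (e1.trans ((kt k).1.trans (hp _ _ (cg_ofG hU er).1).symm)))
  obtain ⟨k2, h2⟩ := (mI _).1 (Ideal.Quotient.eq.1 (e2.trans (kd.trans (hp _ _ (cg_ofG hU er).2).symm)))
  exact ⟨k1 + k2, by rw [add_comm, pow_add, mul_smul, h1, smul_zero],
    by rw [pow_add, mul_smul, h2, smul_zero]⟩

variable [IsDomain O] [IsDiscreteValuationRing O] [Finite F] [CharP F 2] {U : Su O F}

theorem hqG (hU : U.OkG) (a : ℕ) : Finite (O ⧸ Ideal.span {(2 : O) ^ a}) :=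
  fin_quo U.S.red hU.ok.ker (two_ne' a)

theorem two_dvdG (hU : U.OkG) (a : ℕ) : ∃ k, (2 : O) ^ a ∣ U.ϖ ^ k := by
  have hi : Irreducible U.ϖ := (IsDiscreteValuationRing.irreducible_iff_uniformizer _).2 (le_antisymm
    (fun x hx => Ideal.mem_span_singleton.2 (hU.uni.dvd x hx))
    ((Ideal.span_singleton_le_iff_mem _).2 hU.uni.nu))
  obtain ⟨n, u, e⟩ := IsDiscreteValuationRing.eq_unit_mul_pow_irreducible (two_ne' (O := O) a) hi
  exact ⟨n, by rw [e]; exact (Units.mul_left_dvd).2 dvd_rfl⟩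

theorem XP_leG (hU : U.OkG) (hD : DIV O) {l : ℕ} (lv : P022D.Gt.Lv M l) {S : Finset ℕ} (hl : l ∉ S)
    (hu : IsUnit (U.tr (P022D.Fm.fr l))) : U.XP M S ≤ Xo O M U.i l := fun v hv => by
  obtain ⟨a, ha⟩ := P022D.Gt.ex_two hD lv.odd lv.three le_rfl ⟨v, hv.1⟩
  have h := (mem_Pm.1 hv.2 ⟨l, lv.prime, lv.nd⟩ hl).1
  rw [bw_T, uP_cl] at h
  exact ⟨hv.1, per (hqG hU) hu h (congrArg Subtype.val ha)⟩

/-- the operators on `XP M S` -/
theorem exXG (hU : U.OkG) (hD : DIV O) (hK : HKV O) [NeZero M] {l : ℕ} (lv : P022D.Gt.Lv M l)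
    {S : Finset ℕ} (le : U.XP M S ≤ Xo O M U.i l) {t d : GQ → Module.End O (Xo O M U.i l)}
    (h : Ga M U.i l t d) :
    ∃ (t' : GQ → P022D.Fm.BT (P022D.Fm.HA O M U.N U.i) (U.XP M S)) (d' : GQ →* (P022D.Fm.BT (P022D.Fm.HA O M U.N U.i) (U.XP M S))ˣ),
      H346.TF t' d' ∧ (∀ g (v : U.XP M S),
      Submodule.inclusion le (t' g • v) = t g (Submodule.inclusion le v) ∧
      Submodule.inclusion le ((d' g : P022D.Fm.BT (P022D.Fm.HA O M U.N U.i) (U.XP M S)) • v) =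
        d g (Submodule.inclusion le v)) ∧
      ∀ g (v : U.XP M S), ∃ k : ℕ, (t' g - algebraMap O _ (U.tr g)) ^ k • v = 0 ∧
        ((d' g : P022D.Fm.BT (P022D.Fm.HA O M U.N U.i) (U.XP M S)) - algebraMap O _ (U.dt g)) ^ k • v = 0 := by
  classical
  obtain ⟨t', d', tf, k⟩ := exB (N := U.N) h (U.XP M S) le fun ℓ v hv => XP_TS hK U lv.odd S ℓ hv
  have ji := Submodule.inclusion_injective le
  refine ⟨t', d', tf, k, fun g v => nilBG hU tf (S ∪ (U.S.T ∪ (2 * M).primeFactors)) v ?_ ?_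
    (fun p φ hp hS hφ => ?_) g⟩
  · obtain ⟨V, n, o, e⟩ := h.law.opn (Submodule.inclusion le v)
    exact ⟨V, n, o, fun u hu => ⟨ji (by rw [(k u v).2, (e u hu).1]),
      fun g => ji (by rw [(k _ v).1, (k _ v).1, (e u hu).2])⟩⟩
  · obtain ⟨a, ha⟩ := P022D.Gt.ex_two hD lv.odd lv.three (V := U.XP M S) inf_le_left v
    obtain ⟨j, c, hc⟩ := two_dvdG hU a
    refine ⟨j, ?_⟩
    rw [← map_pow, P022D.Fm.BT.alg_smul, hc, mul_comm, mul_smul, ← Nat.cast_ofNat, ← Nat.cast_pow,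
      Nat.cast_smul_eq_nsmul, ha, smul_zero]
  · rw [Finset.mem_union, Finset.mem_union, not_or, not_or] at hS
    have m := P022D.Gt.not_mem_pf (NeZero.ne M) hp hS.2.2
    obtain ⟨x, y⟩ := mem_Pm.1 v.2.2 ⟨p, hp, m⟩ hS.1
    obtain ⟨a, ha⟩ := P022D.Fm.mem_Nl.1 x
    obtain ⟨b, hb⟩ := P022D.Fm.mem_Nl.1 y
    rw [bw_T, uP_cl] at ha
    rw [bw_S, uP_cl] at hb
    obtain ⟨e1, e2⟩ := tr_frG hU hp hS.2.1 hφ
    refine ⟨⟨a, Subtype.ext ?_⟩, ⟨b, Subtype.ext ?_⟩⟩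
    · rw [pow_act (fun w => (congrArg Subtype.val (k φ w).1).trans (h.fr hp m hφ _).1), ← e1]
      exact ha
    · rw [pow_act (fun w => (congrArg Subtype.val (k φ w).2).trans (h.fr hp m hφ _).2), ← e2]
      exact hb

theorem ex_lvG (hU : U.OkG) (hM : Odd M) (h3 : 3 ≤ M) (S : Finset ℕ) :
    ∃ l, P022D.Gt.Lv M l ∧ l ∉ S ∧ IsUnit (U.tr (P022D.Fm.fr l)) := by
  classical
  obtain ⟨l, hl, hS, -, hu⟩ := ex_l0G hU (S ∪ (2 * M).primeFactors)
  rw [Finset.mem_union, not_or] at hS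
  exact ⟨l, ⟨hM, h3, hl, P022D.Gt.not_mem_pf hM.pos.ne' hl hS.2⟩, hS.1, hu⟩

theorem XP_eqG (hU : U.OkG) (hT : P022D.Gt.GT O) (hD : DIV O) (hK : HKV O) (hM : Odd M) (h3 : 3 ≤ M)
    (S : Finset ℕ) : U.XP M S = U.GG M := by
  haveI : NeZero M := ⟨hM.pos.ne'⟩
  refine le_antisymm (fun v hv => ⟨hv.1, mem_Pm.2 fun ℓ _ => ?_⟩)
    fun v hv => ⟨hv.1, mem_Pm.2 fun ℓ _ => mem_Pm.1 hv.2 ℓ (Finset.notMem_empty _)⟩
  obtain ⟨l, lv, hl, hu⟩ := ex_lvG hU hM h3 S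
  obtain ⟨t, d, h⟩ := hT M U.i l lv
  obtain ⟨t', d', -, k, nil⟩ := exXG hU hD hK lv (XP_leG hU hD lv hl hu) h
  obtain ⟨j, a, b⟩ := nil (P022D.Fm.fr ℓ.1) ⟨v, hv⟩
  have hφ := fr_frob ℓ.2.1
  have a' := congrArg Subtype.val a
  have b' := congrArg Subtype.val b
  rw [pow_act (fun w => (congrArg Subtype.val (k _ w).1).trans (h.fr ℓ.2.1 ℓ.2.2 hφ _).1)] at a'
  rw [pow_act (fun w => (congrArg Subtype.val (k _ w).2).trans (h.fr ℓ.2.1 ℓ.2.2 hφ _).2)] at b'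
  rw [bw_T, bw_S, uP_cl]
  exact ⟨P022D.Fm.mem_Nl.2 ⟨j, a'⟩, P022D.Fm.mem_Nl.2 ⟨j, b'⟩⟩

theorem exOpG (hU : U.OkG) (hT : P022D.Gt.GT O) (hD : DIV O) (hK : HKV O) (hV : DESCV O) (hM : Odd M)
    (h3 : 3 ≤ M) : ∃ (t : GQ → U.B M) (d : GQ →* (U.B M)ˣ), U.Op t d := by
  haveI : NeZero M := ⟨hM.pos.ne'⟩
  obtain ⟨l, lv, hl, hu⟩ := ex_lvG hU hM h3 ∅
  obtain ⟨t, d, h⟩ := hT M U.i l lv
  have le : U.GG M ≤ Xo O M U.i l := XP_leG hU hD lv hl hu
  obtain ⟨t', d', tf, k, nil⟩ : ∃ (t' : GQ → U.B M) (d' : GQ →* (U.B M)ˣ),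
      H346.TF t' d' ∧ (∀ g (v : U.GG M),
      Submodule.inclusion le (t' g • v) = t g (Submodule.inclusion le v) ∧
      Submodule.inclusion le ((d' g : U.B M) • v) = d g (Submodule.inclusion le v)) ∧
      ∀ g (v : U.GG M), ∃ k : ℕ, (t' g - algebraMap O _ (U.tr g)) ^ k • v = 0 ∧
        ((d' g : U.B M) - algebraMap O _ (U.dt g)) ^ k • v = 0 := exXG hU hD hK lv le h
  have ji := Submodule.inclusion_injective le
  have kt : ∀ g (v : U.GG M), ((t' g • v : U.GG M) : P022D.Fm.AM O M) = t g (Submodule.inclusion le v) :=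
    fun g v => congrArg Subtype.val (k g v).1
  have kd : ∀ g (v : U.GG M), (((d' g : U.B M) • v : U.GG M) : P022D.Fm.AM O M) =
      d g (Submodule.inclusion le v) := fun g v => congrArg Subtype.val (k g v).2
  have cu : ∀ {s : GQ} {u : (ZMod M)ˣ}, P022D.Fm.Cy M s (u : ZMod M).val → cyc M s = u := fun e =>
    cy_eq e (ZMod.natCast_zmod_val _).symm
  refine ⟨t', d', tf, fun v => ?_, fun ℓ φ hφ v => ?_, fun ℓ φ hφ v => ?_, fun v => ?_, nil,
    fun v => ?_, fun p hp p2 s hs u e v => ?_, fun c hc => P022D.Fm.BT.ext fun v => ji ?_,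
    fun M₀ q sp s hs u e v hv => ?_, fun M₀ q sp s hs v hv g => ji ?_⟩
  · let V : Subgroup GQ :=
      { carrier := {u | (d' u : U.B M) • v = v ∧ ∀ g, t' (g * u) • v = t' g • v}
        one_mem' := ⟨by rw [map_one, Units.val_one, one_smul], fun g => by rw [mul_one]⟩
        mul_mem' := fun {a b} x y => ⟨by rw [map_mul, Units.val_mul, mul_smul, y.1, x.1],
          fun g => by rw [← mul_assoc, y.2, x.2]⟩
        inv_mem' := fun {a} x => ⟨by
            conv_lhs => rw [← x.1]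
            rw [smul_smul, ← Units.val_mul, ← map_mul, inv_mul_cancel, map_one, Units.val_one,
              one_smul],
          fun g => by rw [← x.2, inv_mul_cancel_right]⟩ }
    obtain ⟨W, -, o, e⟩ := h.law.opn (Submodule.inclusion le v)
    refine ⟨V, ⟨fun a x b => ⟨?_, fun g => ?_⟩⟩, Subgroup.isOpen_mono (fun u hu =>
      ⟨ji (by rw [(k u v).2, (e u hu).1]), fun g => ji (by rw [(k _ v).1, (k _ v).1, (e u hu).2])⟩) o,
      fun ℓ s hs => ?_, fun u hu => hu⟩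
    · rw [map_mul, map_mul, mul_right_comm, ← map_mul, mul_inv_cancel, map_one, one_mul]
      exact x.1
    · rw [show g * (b * a * b⁻¹) = g * b * a * b⁻¹ by group, tf.comm,
        show b⁻¹ * (g * b * a) = b⁻¹ * (g * b) * a by group, x.2, tf.comm, mul_inv_cancel_right]
    · obtain ⟨a, b⟩ := h.unr ℓ.1 ℓ.2.1 ℓ.2.2 s hs
      exact ⟨ji (by rw [(k s v).2, a]; rfl), fun g => ji (by rw [(k _ v).1, (k _ v).1, b])⟩
  · rw [kt, uP_cl]
    exact (h.fr ℓ.2.1 ℓ.2.2 hφ _).1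
  · rw [kd, uP_cl]
    exact (h.fr ℓ.2.1 ℓ.2.2 hφ _).2
  · obtain ⟨s, hv, cl⟩ := h.fin (Submodule.inclusion le v)
    let A : Submodule O (P022D.Fm.AM O M) := Submodule.span O ((Xo O M U.i l).subtype '' s)
    have hA : (A : Set (P022D.Fm.AM O M)).Finite := fin_span (hqG hU) (s.finite_toSet.image _) (by
      rintro _ ⟨w, -, rfl⟩
      obtain ⟨a, ha⟩ := P022D.Gt.ex_two hD hM h3 P022D.Gt.Xo_le w
      exact ⟨a, congrArg Subtype.val ha⟩)
    have gen : ∀ f : Module.End O (P022D.Fm.AM O M), (∀ w ∈ s, ∃ w' ∈ s, (w' : P022D.Fm.AM O M) = f w) →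
        ∀ w ∈ A, f w ∈ A := fun f hf w hw => by
      refine (Submodule.span_le.2 ?_ : A ≤ A.comap f) hw
      rintro _ ⟨x, hx, rfl⟩
      obtain ⟨y, hy, e⟩ := hf x hx
      exact Submodule.subset_span ⟨y, hy, e⟩
    have st : ∀ f ∈ P022D.Fm.HA O M U.N U.i, ∀ w ∈ A, f w ∈ A := fun f hf =>
      HA_ind (fun f => ∀ w ∈ A, f w ∈ A) (fun c w hw => A.smul_mem c hw)
        (fun a b x y w hw => A.add_mem (x w hw) (y w hw)) (fun a b x y w hw => x _ (y w hw))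
        (fun ℓ => ⟨gen _ fun w hw => ⟨_, ((cl w hw).1 (P022D.Fm.fr ℓ.1)).1, by
            rw [uP_cl]; exact (h.fr ℓ.2.1 ℓ.2.2 (fr_frob ℓ.2.1) w).1⟩,
          gen _ fun w hw => ⟨_, ((cl w hw).1 (P022D.Fm.fr ℓ.1)).2, by
            rw [uP_cl]; exact (h.fr ℓ.2.1 ℓ.2.2 (fr_frob ℓ.2.1) w).2⟩⟩)
        (fun a b _ => gen _ fun w hw => ⟨P022D.Gt.rX hK hD lv U.i (dg a b) w,
          (cl w hw).2 (dg a b) _ rfl, rfl⟩) hf
    refine Set.Finite.to_subtype ((hA.preimage Subtype.val_injective.injOn).subset fun w hw => ?_)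
    obtain ⟨e, rfl⟩ := Submodule.mem_span_singleton.1 hw
    obtain ⟨f, hf, e1⟩ := e.loc {v}
    change (e.op v : P022D.Fm.AM O M) ∈ A
    rw [e1 v (Finset.mem_singleton_self v)]
    exact st f (cm_HA (O := O) (M := M) U.N U.i ▸ hf) _ (Submodule.subset_span ⟨_, hv, rfl⟩)
  · obtain ⟨a, ha⟩ := P022D.Gt.ex_two hD hM h3 P022D.Gt.Xo_le (Submodule.inclusion le v)
    refine ⟨a + 1, fun g x u hx hu e => ?_⟩
    rw [kd, h.det a x g _ ha hx (cy_dvd (dvd_mul_right _ _) e),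
      cy_eq (cy_dvd (dvd_mul_left _ _) e) hu]
    rfl
  · rw [kd, h.dI hD lv hp p2 hs, cu e]
    rfl
  · rw [(k c v).2, h.dc c hc, neg_smul, one_smul, map_neg]
    rfl
  · rw [kt, h.i1 M₀ q sp s hs _ hv, cu e]
    rfl
  · rw [(k _ v).1, (k _ v).1, unl' hT hK hV lv h sp hs _ hv]

end OpP

/-- **row GOP** -/
theorem gopG {O F : Type} [CommRing O] [IsDomain O] [IsDiscreteValuationRing O] [Co O] [Field F]
    [Finite F] [CharP F 2] {U : Su O F} (hU : U.OkG) (hT : P022D.Gt.GT O) (hD : DIV O) (hK : HKV O)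
    (hV : DESCV O) : GOP U := fun M hM h3 =>
  ⟨OpP.exOpG hU hT hD hK hV hM h3, OpP.XP_eqG hU hT hD hK hM h3⟩

end Vale.Agent.P022E.Fm
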