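import Vale.Agent.P022E.Fm.FibR
import Vale.Agent.P022E.Fm.FibI

/-!
P022G, forms side: tools for the comparison of two fixed data.
-/

set_option linter.all false

noncomputable section

namespace Vale.Agent.P022G.Trf

open Vale.Agent.P022 Vale.Agent.P022D.V Vale.Agent.P022E.V
open Vale.Agent.P022D.Fm (AM rD uP Mt)
open Vale.Agent.P022E.Fm (Su Dt)
open Vale.Agent.P022E.As (Tg)

section rep

open Vale.Agent.P022D.Rep

variable {K Γ R : Type} [Field K] [Group Γ] [Fintype K] [Fintype Γ] [CommRing R] (D : BN K Γ)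
  {C C' : Ch K R} {μ : Kˣ} (h : ∀ y, C'.ψ y = C.ψ (μ * y))
include h

theorem ee_tw : ee D C' 1 * el R (D.t 1 μ) = el R (D.t 1 μ) * ee D C 1 := by
  have e : C'.li = C.li := by
    rw [← mul_one C'.li, ← C.li_mul, mul_left_comm, C'.li_mul, mul_one]
  rw [t_ee]
  congr 1
  unfold ee
  rw [e]
  congr 1
  refine Finset.sum_congr rfl fun x _ => ?_
  rw [h]
  congr 2
  simp

theorem ip_tw {r : MonoidAlgebra R Γ} (hr : r ∈ Ip D C') : r * el R (D.t 1 μ) ∈ Ip D C := by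
  intro a
  have e1 : el R (D.t 1 μ) * v0 D C = v0 D C' := by
    unfold v0
    rw [← mul_assoc, ← mul_assoc, ← ee_tw D h, mul_assoc (ee D C' 1), ← el_mul, D.t_w, el_mul,
      mul_assoc, mul_assoc, mul_assoc, b_nB D (D.t_mem _ _)]
  have e2 := chi_spec D C' (el R (D.t 1 μ) * a * r)
  rw [hr, zero_smul, ← e1, ← mul_assoc, ← mul_assoc, ← mul_assoc, ee_tw D h] at e2
  have e3 := congrArg (el R (D.t 1 μ)⁻¹ * ·) e2
  simp only [← mul_assoc, ← el_mul, inv_mul_cancel, el_one, one_mul, mul_zero] at e3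
  apply chi_of
  rw [zero_smul, ← e3]
  simp only [mul_assoc]

end rep

variable {O F : Type} [CommRing O] [Field F] [Co O]

section td

variable {U₁ U₂ : Su O F} {M₁ M₂ : ℕ} (φ : AM O M₁ →ₗ[O] AM O M₂)

/-- the graph of `φ` on the carriers -/
def Rf (v : U₁.GG M₁) (w : U₂.GG M₂) : Prop := ((v : AM O M₁), (w : AM O M₂)) ∈ φ.graph

/-- `φ` respects the Hecke operators -/
def Hk (i₁ i₂ : ℕ) : Prop := ∀ (ℓ₁ : PA M₁) (ℓ₂ : PA M₂), ℓ₁.1 = ℓ₂.1 → ∀ v,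
  φ (T2 O (RD O) i₁ ℓ₁.1 (uP ℓ₁) v) = T2 O (RD O) i₂ ℓ₂.1 (uP ℓ₂) (φ v) ∧
  φ (S2 O (RD O) i₁ ℓ₁.1 (uP ℓ₁) v) = S2 O (RD O) i₂ ℓ₂.1 (uP ℓ₂) (φ v)

variable {φ}

theorem rf_iff {v : U₁.GG M₁} {w : U₂.GG M₂} : Rf φ v w ↔ (w : AM O M₂) = φ v := Iff.rfl

theorem td {t₁ : GQ → U₁.B M₁} {d₁ : GQ →* (U₁.B M₁)ˣ} {t₂ : GQ → U₂.B M₂}
    {d₂ : GQ →* (U₂.B M₂)ˣ} (C : Hk φ U₁.i U₂.i) (n1 : M₁ ≠ 0) (n2 : M₂ ≠ 0) (h₁ : U₁.Op t₁ d₁)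
    (h₂ : U₂.Op t₂ d₂) (g : GQ) {v : U₁.GG M₁} {w : U₂.GG M₂} (h : Rf φ v w) :
    Rf φ (t₁ g • v) (t₂ g • w) ∧ Rf φ ((d₁ g : U₁.B M₁) • v) ((d₂ g : U₂.B M₂) • w) := by
  obtain ⟨V₁, n₁, o₁, -, e₁⟩ := h₁.opn v
  obtain ⟨V₂, n₂, o₂, -, e₂⟩ := h₂.opn w
  obtain ⟨ℓ, f, k, hl, hS, hφ, hu⟩ := P022D.G.frob (V₁ ⊓ V₂) inferInstance (o₁.inter o₂) g
    ((2 * M₁).primeFactors ∪ (2 * M₂).primeFactors)
  rw [Finset.mem_union, not_or] at hS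
  let ℓ₁ : PA M₁ := ⟨ℓ, hl, fun e => hS.1
    (Nat.mem_primeFactors.2 ⟨hl, e, mul_ne_zero two_ne_zero n1⟩)⟩
  let ℓ₂ : PA M₂ := ⟨ℓ, hl, fun e => hS.2
    (Nat.mem_primeFactors.2 ⟨hl, e, mul_ne_zero two_ne_zero n2⟩)⟩
  have H : ∀ (a : U₁.GG M₁) (b : U₂.GG M₂), Rf φ a b → Rf φ (t₁ f • a) (t₂ f • b) ∧
      Rf φ ((d₁ f : U₁.B M₁) • a) ((d₂ f : U₂.B M₂) • b) := fun a b r => by
    rw [rf_iff, rf_iff, h₁.frT ℓ₁ f hφ, h₂.frT ℓ₂ f hφ, h₁.frS ℓ₁ f hφ, h₂.frS ℓ₂ f hφ,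
      rf_iff.1 r]
    exact ⟨(C ℓ₁ ℓ₂ rfl _).1.symm, (C ℓ₁ ℓ₂ rfl _).2.symm⟩
  have ht : ∀ k : ℕ, (∀ (a : U₁.GG M₁) (b : U₂.GG M₂), Rf φ a b →
      Rf φ (t₁ (f ^ k) • a) (t₂ (f ^ k) • b)) ∧ ∀ (a : U₁.GG M₁) (b : U₂.GG M₂), Rf φ a b →
      Rf φ (t₁ (f ^ (k + 1)) • a) (t₂ (f ^ (k + 1)) • b) := by
    intro k
    induction k with
    | zero =>
      refine ⟨fun a b r => ?_, fun a b r => by rw [zero_add, pow_one]; exact (H a b r).1⟩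
      rw [pow_zero, h₁.tf.one, h₂.tf.one, two_smul, two_smul]
      exact φ.graph.add_mem r r
    | succ k ih =>
      refine ⟨ih.2, fun a b r => ?_⟩
      have x := h₁.tf.mul (f ^ (k + 1)) f
      have y := h₂.tf.mul (f ^ (k + 1)) f
      rw [← pow_succ, pow_succ f k, mul_inv_cancel_right, ← pow_succ f k] at x y
      rw [eq_sub_of_add_eq x.symm, eq_sub_of_add_eq y.symm, sub_smul, sub_smul, mul_smul, mul_smul,
        mul_smul, mul_smul]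
      exact φ.graph.sub_mem (ih.2 _ _ (H a b r).1) (H _ _ (ih.1 a b r)).2
  have hd : ∀ (k : ℕ) (a : U₁.GG M₁) (b : U₂.GG M₂), Rf φ a b →
      Rf φ ((d₁ (f ^ k) : U₁.B M₁) • a) ((d₂ (f ^ k) : U₂.B M₂) • b) := by
    intro k
    induction k with
    | zero =>
      intro a b r
      rwa [pow_zero, map_one, map_one, Units.val_one, Units.val_one, one_smul, one_smul]
    | succ k ih =>
      intro a b r
      rw [pow_succ, map_mul, map_mul, Units.val_mul, Units.val_mul, mul_smul, mul_smul]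
      exact ih _ _ (H a b r).2
  have eg : f ^ k = g * (g⁻¹ * f ^ k) := by rw [mul_inv_cancel_left]
  constructor
  · rw [← (e₁ _ hu.1).2 g, ← (e₂ _ hu.2).2 g, ← eg]
    exact (ht k).1 v w h
  · have a := hd k v w h
    rwa [eg, map_mul d₁ g, map_mul d₂ g, Units.val_mul, Units.val_mul, mul_smul, mul_smul,
      (e₁ _ hu.1).1, (e₂ _ hu.2).1] at a

theorem rf_alg (c : O) {v : U₁.GG M₁} {w : U₂.GG M₂} (h : Rf φ v w) :
    Rf φ (algebraMap O (U₁.B M₁) c • v) (algebraMap O (U₂.B M₂) c • w) := φ.graph.smul_mem c h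

theorem rf_sub {v v' : U₁.GG M₁} {w w' : U₂.GG M₂} (h : Rf φ v w) (h' : Rf φ v' w') :
    Rf φ (v - v') (w - w') := φ.graph.sub_mem h h'

theorem rf_eq (hφ : Function.Injective φ) {v v' : U₁.GG M₁} {w : U₂.GG M₂} (h : Rf φ v w)
    (h' : Rf φ v' w) : v = v' := Subtype.ext (hφ ((rf_iff.1 h).symm.trans (rf_iff.1 h')))

theorem rf_zero (hφ : Function.Injective φ) {v : U₁.GG M₁} {w : U₂.GG M₂} (h : Rf φ v w)
    (e : w = 0) : v = 0 := rf_eq hφ h (e ▸ φ.graph.zero_mem)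

variable [CharP F 2] [∀ l : U₁.L.C, Fact l.1.Prime] [∀ l : U₂.L.C, Fact l.1.Prime] {n₁ n₂ : ℕ}
  {X₁ : Dt U₁ M₁ n₁} {X₂ : Dt U₂ M₂ n₂}

theorem rf_ev (C : Hk φ U₁.i U₂.i) (n1 : M₁ ≠ 0) (n2 : M₂ ≠ 0) (h₁ : X₁.Ok) (h₂ : X₂.Ok)
    (u₁ : Fin 0 ⊕ Fin 0 → U₁.B M₁) (u₂ : Fin 0 ⊕ Fin 0 → U₂.B M₂) (p : Tg O) :
    ∀ (v : U₁.GG M₁) (w : U₂.GG M₂), Rf φ v w → Rf φ (X₁.ev u₁ p • v) (X₂.ev u₂ p • w) := by
  induction p using MvPolynomial.induction_on with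
  | C c =>
    intro v w h
    rw [Dt.ev, Dt.ev, MvPolynomial.eval₂Hom_C, MvPolynomial.eval₂Hom_C]
    exact rf_alg c h
  | add p q hp hq =>
    intro v w h
    rw [map_add, map_add, add_smul, add_smul]
    exact φ.graph.add_mem (hp v w h) (hq v w h)
  | mul_X p s hp =>
    intro v w h
    rw [map_mul, map_mul, mul_smul, mul_smul]
    refine hp _ _ ?_
    rw [Dt.ev, Dt.ev, MvPolynomial.eval₂Hom_X', MvPolynomial.eval₂Hom_X']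
    rcases s with g | g | i
    · exact (td C n1 n2 h₁.op h₂.op g h).1
    · exact (td C n1 n2 h₁.op h₂.op g h).2
    · simp only [Sum.elim_inr, Nat.not_lt_zero, dite_false, zero_smul]
      exact φ.graph.zero_mem

/-- the inverse of `φ` as a map of modules over the symbols -/
theorem ex_lin (C : Hk φ U₁.i U₂.i) (hφ : Function.Injective φ) (n1 : M₁ ≠ 0) (n2 : M₂ ≠ 0)
    (h₁ : X₁.Ok) (h₂ : X₂.Ok) (u₁ : Fin 0 ⊕ Fin 0 → U₁.B M₁) (u₂ : Fin 0 ⊕ Fin 0 → U₂.B M₂)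
    {Y₁ : Submodule (U₁.B M₁) (U₁.GG M₁)} {Y₂ : Submodule (U₂.B M₂) (U₂.GG M₂)}
    (h : ∀ w ∈ Y₂, ∃ v ∈ Y₁, Rf φ v w) :
    ∃ f : Mt (X₂.ev u₂) Y₂ →ₗ[Tg O] Mt (X₁.ev u₁) Y₁, Function.Injective f := by
  choose g g1 g2 using h
  refine ⟨⟨⟨fun w => ⟨g w.1 w.2, g1 w.1 w.2⟩, fun a b => Subtype.ext (rf_eq hφ (g2 _ _)
    (φ.graph.add_mem (g2 a.1 a.2) (g2 b.1 b.2)))⟩, fun p a => Subtype.ext (rf_eq hφ (g2 _ _)
    (rf_ev C n1 n2 h₁ h₂ u₁ u₂ p _ _ (g2 a.1 a.2)))⟩, fun a b e => Subtype.ext (Subtype.ext ?_)⟩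
  have e' : g a.1 a.2 = g b.1 b.2 := congrArg Subtype.val e
  rw [rf_iff.1 (g2 a.1 a.2), rf_iff.1 (g2 b.1 b.2), e']

end td

section ph

variable {N' N : ℕ} (h : N' ∣ N) (δ : GM N')

/-- the twisted inflation -/
def ph (O : Type) [CommRing O] [Co O] {N' N : ℕ} (h : N' ∣ N) (δ : GM N') :
    AM O N' →ₗ[O] AM O N := (ifl O (RD O) h).comp (rD O δ⁻¹)

theorem ph_apply (w : AM O N') : ph O h δ w = ifl O (RD O) h (rt O (RD O) δ⁻¹ w) := rfl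

theorem ph_inj (hN : Odd N) : Function.Injective (ph O h δ) := fun a b e => by
  have := congrArg (rt O (RD O) δ) (ifl_inj (S := O) h hN e)
  change rt O (RD O) δ (rt O (RD O) δ⁻¹ a) = rt O (RD O) δ (rt O (RD O) δ⁻¹ b) at this
  rwa [rt_rt, rt_rt, mul_inv_cancel, rt_one, rt_one] at this

theorem ph_rt {k : GM N} {k' : GM N'} (e : pr h k = δ⁻¹ * k' * δ) (w : AM O N') :
    ph O h δ (rt O (RD O) k' w) = rt O (RD O) k (ph O h δ w) := by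
  rw [ph_apply, ph_apply, ← ifl_rt, e, rt_rt, rt_rt, mul_inv_cancel_right]

theorem ph_hk (i : ℕ) : Hk (ph O h δ) i i := by
  rintro ⟨l, hl⟩ ⟨l', hl'⟩ e v
  obtain rfl : l = l' := e
  rw [ph_apply, ph_apply, ph_apply, rt_T2, rt_S2]
  exact ⟨ifl_T2 h i (P022E.Fm.uP_coe ⟨l, hl'⟩) (P022E.Fm.uP_coe ⟨l, hl⟩) _,
    ifl_S2 h i (P022E.Fm.uP_coe ⟨l, hl'⟩) (P022E.Fm.uP_coe ⟨l, hl⟩) _⟩

end ph

end Vale.Agent.P022G.Trf
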