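import Vale.Agent.P022G.Fp.Tr1
import Vale.Agent.P022G.Fp.FmFibR
import Vale.Agent.P022G.Fp.FmDic
import Vale.Agent.P022G.Fp.FmHc
import Vale.Agent.P022G.Fp.FmGopC
import Vale.Agent.P022G.Top.Drop

/-!
P022G, forms side: the modules of level zero without the auxiliary primes.
-/

set_option linter.all false

noncomputable section

namespace Vale.Agent.P022G.Trf

open Vale.Agent.P022 Vale.Agent.P022D.V Vale.Agent.P022E.V
open Vale.Agent.P022D.Fm (AM rD uP Mt Lc)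
open Vale.Agent.P022E.Fm
open Vale.Agent.P022E.As (Tg)
open Vale.Agent.P022G.Top (dU dL)
open Vale.Agent.P022D.Rep (XJ el It Ip)

variable {O F : Type} [CommRing O] [IsLocalRing O] [Co O] [Field F] {U : Su O F} {A : Finset ℕ}
  {h0 : U.S.l0 ∉ A} (hU : U.OkG) (hA : A ⊆ U.L.C) (hU' : (dU U A h0).OkG)

theorem lm0 {U : Su O F} (hU : U.OkG) : U.Lm U.N :=
  ⟨hU.odd, hU.three, dvd_rfl, by
    rw [Nat.div_self (Nat.pos_of_ne_zero hU.Nne)]
    exact Nat.coprime_one_right _⟩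

theorem divNC {U : Su O F} (hU : U.OkG) : U.N / U.NC = U.NW :=
  Nat.mul_div_cancel _ (Nat.pos_of_ne_zero hU.NCne)

include hU hA

theorem eNC : U.NC = (dU U A h0).NC * ∏ a ∈ A, a := by
  rw [hU.NC]
  exact (Finset.prod_sdiff hA).symm

theorem eN : U.N = (dU U A h0).N * ∏ a ∈ A, a := by
  rw [Su.N, eNC (h0 := h0) hU hA, ← mul_assoc]
  rfl

theorem dN : (dU U A h0).N ∣ U.N := ⟨_, eN hU hA⟩

include hU'

theorem eQ : U.N / (dU U A h0).N = ∏ a ∈ A, a := by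
  rw [eN (h0 := h0) hU hA, Nat.mul_div_cancel_left _ (Nat.pos_of_ne_zero hU'.Nne)]

theorem cop : Nat.Coprime (∏ a ∈ A, a) (dU U A h0).N := Nat.Coprime.prod_left fun a ha => by
  have hp := (hU.prC (hA ha)).1
  refine hp.coprime_iff_not_dvd.2 fun h => ?_
  rcases Finset.mem_union.1 ((hU'.dvdN hp).1 h) with k | k
  · exact Finset.disjoint_left.1 hU.ok.dj k (hA ha)
  · exact (Finset.mem_sdiff.1 k).2 ha

theorem lc : Lc (dU U A h0).N U.N :=
  ⟨dN hU hA, hU.Nne, by rw [eQ hU hA hU']; exact (cop hU hA hU').symm⟩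

/-- the class of the product of the auxiliary primes -/
def mu : (ZMod (dU U A h0).N)ˣ := ZMod.unitOfCoprime _ (cop hU hA hU')

/-- the comparison map -/
abbrev Ph : AM O (dU U A h0).N →ₗ[O] AM O U.N := ph O (dN hU hA) (dg 1 (mu hU hA hU'))

theorem Ph_inj : Function.Injective (Ph hU hA hU') := ph_inj _ _ hU.odd

theorem zp {v : AM O (dU U A h0).N} (h : Ph hU hA hU' v ∈ U.Zp U.N 0) :
    v ∈ (dU U A h0).Zp (dU U A h0).N 0 := by
  haveI : NeZero U.N := ⟨hU.Nne⟩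
  haveI : NeZero (dU U A h0).N := ⟨hU'.Nne⟩
  refine ⟨⟨?_, mem_WhP1.2 fun x => Ph_inj hU hA hU' ?_⟩, fun g hg => ?_⟩
  · rintro _ ⟨a', ha, rfl⟩
    rw [divNC hU'] at ha
    obtain ⟨a, b, e⟩ := (lc hU hA hU').unit (K := U.NW) NW_dvd ha
    have e1 := h.1.1 (dg a a) ⟨a, by
      rw [divNC hU]
      exact P022D.Fm.cg_dvd (dvd_mul_right _ _) b, rfl⟩
    have e2 : U.om (a : ZMod U.N).val = U.om (a' : ZMod (dU U A h0).N).val := by
      apply hU'.omp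
      rw [← ZMod.natCast_eq_natCast_iff, ← map_natCast (ZMod.castHom (dN hU hA) _),
        ZMod.natCast_zmod_val, ZMod.natCast_zmod_val]
      exact e
    apply Ph_inj hU hA hU'
    rw [ph_rt (k := dg a a), e1, map_smul]
    · exact congrArg (· • _) e2
    · have : Units.map (ZMod.castHom (dN hU hA) (ZMod (dU U A h0).N) : ZMod U.N →* _) a = a' :=
        Units.ext e
      rw [pr_dg, this, mul_assoc, dg_center, inv_mul_cancel_left]
  · have e := mem_WhP1.1 h.1.2 x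
    rw [map_smul, ph_rt (k := un ((U.NC * x : ℕ) : ZMod U.N))]
    · refine Eq.trans (congrArg (· • _) ?_) e
      rw [eNC (h0 := h0) hU hA, mul_right_comm, mul_comm _ (∏ a ∈ A, a), pow_mul U.z]
      rfl
    · rw [mul_assoc, Red.un_dg, inv_mul_cancel_left, pr_un, map_natCast, eNC (h0 := h0) hU hA]
      congr 1
      rw [mu, ZMod.coe_unitOfCoprime, inv_one, Units.val_one, one_mul, mul_right_comm, Nat.cast_mul]
  · rw [← P022D.Fm.pr_self g, (Wq.mem_Kq dvd_rfl g).1 (tq_bq hg).1, rt_one, one_smul]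

variable [CharP F 2] [hC : ∀ l : U.L.C, Fact l.1.Prime] [hC' : ∀ l : (dU U A h0).L.C, Fact l.1.Prime]
  {X : Dt U U.N 0} {X' : Dt (dU U A h0) (dU U A h0).N 0} (hX : X.Ok) (hX' : X'.Ok)

omit hU hA hU' in
/-- the same prime -/
abbrev up (l : (dU U A h0).L.C) : U.L.C := ⟨l.1, (Finset.mem_sdiff.1 l.2).1⟩

/-- the class modulo `l` -/
def ml (l : (dU U A h0).L.C) : (ZMod l.1)ˣ :=
  Units.map (ZMod.castHom (lcCG hU' l.2).1.dvd (ZMod l.1) : ZMod (dU U A h0).N →* _) (mu hU hA hU')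

theorem ml_coe (l : (dU U A h0).L.C) : (ml hU hA hU' l : ZMod l.1) = (∏ a ∈ A, a : ℕ) :=
  map_natCast (ZMod.castHom (lcCG hU' l.2).1.dvd (ZMod l.1)) _

theorem eL (l : (dU U A h0).L.C) : U.N / l.1 = (dU U A h0).N / l.1 * ∏ a ∈ A, a := by
  rw [eN (h0 := h0) hU hA, Nat.div_mul_right_comm (lcCG hU' l.2).1.dvd]

include hX hX'

theorem rho (l : (dU U A h0).L.C) (γ : U.Gam (up l)) {v : (dU U A h0).Wb (dU U A h0).N 0}
    {w : U.Wb U.N 0} (h : Rf (Ph hU hA hU') (v : (dU U A h0).GG _) (w : U.GG _)) :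
    Rf (Ph hU hA hU') (X'.E.ρ (Pi.mulSingle l γ) v : (dU U A h0).GG _)
      (X.E.ρ (Pi.mulSingle (up l) (((U.bn (up l)).t 1 (ml hU hA hU' l))⁻¹ * γ *
        (U.bn (up l)).t 1 (ml hU hA hU' l))) w : U.GG _) := by
  obtain ⟨g, rfl⟩ := QuotientGroup.mk_surjective γ
  have s := Dic.spG hU' (lm0 hU') l.2
  have hl := (lcCG hU' l.2).1.dvd
  have m : (dg 1 (mu hU hA hU'))⁻¹ * P022D.Rep.emb s g * dg 1 (mu hU hA hU') ∈
      Kq (dU U A h0).N ((dU U A h0).N / l.1) := by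
    rw [Wq.mem_Kq s.dvd, map_mul, map_mul, (Wq.mem_Kq s.dvd _).1 (P022D.Rep.emb_mem s g), mul_one,
      map_inv, inv_mul_cancel]
  obtain ⟨k, a, b⟩ := (lc hU hA hU').lift s.dvd m
  rw [eQ hU hA hU', ← eL hU hA hU' l] at a
  have e := Dic.rho_kG hU (lm0 hU) hX (up l) (hl.trans (dN hU hA)) a w
  have e1 : pr hl (dg 1 (mu hU hA hU')) = P022D.Rep.tG 1 (ml hU hA hU' l) := by
    rw [pr_dg, map_one]
    rfl
  rw [← P022D.Fm.pr_pr hl (dN hU hA), b, map_mul, map_mul, map_inv, P022D.Rep.pr_emb, e1] at e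
  rw [rf_iff, Dic.rho_embG hU' (lm0 hU') hX' l s g v]
  refine e.trans ?_
  rw [rf_iff.1 h]
  exact (ph_rt _ _ b _).symm

theorem al (l : (dU U A h0).L.C) (r : MonoidAlgebra F (U.Gam (up l)))
    {v : (dU U A h0).Wb (dU U A h0).N 0} {w : U.Wb U.N 0}
    (h : Rf (Ph hU hA hU') (v : (dU U A h0).GG _) (w : U.GG _)) :
    Rf (Ph hU hA hU') (X'.E.al l r v : (dU U A h0).GG _)
      (X.E.al (up l) (el F ((U.bn (up l)).t 1 (ml hU hA hU' l))⁻¹ *
        (r * el F ((U.bn (up l)).t 1 (ml hU hA hU' l)))) w : U.GG _) := by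
  refine P022D.Rep.el_ind (p := fun r => Rf (Ph hU hA hU') (X'.E.al l r v : (dU U A h0).GG _)
      (X.E.al (up l) (el F ((U.bn (up l)).t 1 (ml hU hA hU' l))⁻¹ *
        (r * el F ((U.bn (up l)).t 1 (ml hU hA hU' l)))) w : U.GG _)) r ?_ ?_ ?_
  · intro γ
    rw [← mul_assoc, ← P022D.Rep.el_mul, ← P022D.Rep.el_mul, P022D.Rep.Act.al_el,
      P022D.Rep.Act.al_el]
    exact rho hU hA hU' hX hX' l γ h
  · intro x y hx hy
    rw [add_mul, mul_add, map_add, map_add, LinearMap.add_apply, LinearMap.add_apply]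
    exact (LinearMap.graph _).add_mem hx hy
  · intro c x hx
    obtain ⟨c, rfl⟩ := U.S.surj c
    rw [smul_mul_assoc, mul_smul_comm, P022D.Rep.Act.al_smul, P022D.Rep.Act.al_smul,
      Module.End.mul_apply, Module.End.mul_apply, hX.sc]
    erw [hX'.sc]
    exact rf_alg c hx

variable {Cc : ∀ l : U.L.C, P022D.Rep.Ch (ZMod l.1) F}
  {Cc' : ∀ l : (dU U A h0).L.C, P022D.Rep.Ch (ZMod l.1) F} (hc : U.IsCh Cc)
  (hc' : (dU U A h0).IsCh Cc')

omit hX hX' in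
include hc hc' in
theorem ch (l : (dU U A h0).L.C) (y : ZMod l.1) :
    (Cc' l).ψ y = (Cc (up l)).ψ (ml hU hA hU' l * y) := by
  have hu : (((dU U A h0).N / l.1 : ℕ) : ZMod l.1) ≠ 0 := fun e =>
    (Dic.levG hU' (lm0 hU') l.2).2.2.1 ((ZMod.natCast_eq_zero_iff _ _).1 e)
  obtain ⟨x, rfl⟩ : ∃ x : ℕ, y = (((dU U A h0).N / l.1 * x : ℕ) : ZMod l.1) :=
    ⟨(y / (((dU U A h0).N / l.1 : ℕ) : ZMod l.1)).val, by
      rw [Nat.cast_mul, ZMod.natCast_zmod_val, mul_div_cancel₀ _ hu]⟩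
  have a := hc (up l) x
  have b := hc' l x
  have e : U.N / l.1 * x = (∏ a ∈ A, a) * ((dU U A h0).N / l.1 * x) := by
    rw [eL hU hA hU' l]
    ring
  change _ * U.S.red (U.z ^ ∏ a ∈ A, a) ^ _ = 1 at b
  rw [map_pow, ← pow_mul] at b
  change (Cc (up l)).ψ ((U.N / l.1 * x : ℕ) : ZMod l.1) * U.S.red U.z ^ (U.N / l.1 * x) = 1 at a
  rw [e] at a
  rw [ml_coe, ← Nat.cast_mul]
  exact (eq_inv_of_mul_eq_one_left b).trans (eq_inv_of_mul_eq_one_left a).symm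

omit hX' in
theorem fixA {w : U.Wb U.N 0} (h : ∀ l : U.L.C, l.1 ∈ A → ∀ g, X.E.ρ (Pi.mulSingle l g) w = w) :
    ((w : U.GG U.N) : AM O U.N) ∈ Iv O (RD O) (Kq U.N (dU U A h0).N) := by
  refine mem_Iv.2 fun k hk => ?_
  let H : Submonoid (∀ l, U.Gam l) :=
    { carrier := {γ | X.E.ρ γ w = w}
      one_mem' := by
        show X.E.ρ 1 w = w
        rw [map_one]
        rfl
      mul_mem' := fun {a b} ha hb => by
        show X.E.ρ (a * b) w = w
        rw [map_mul, Module.End.mul_apply, hb, ha] }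
  have e := hX.act k (by
    rw [divNC hU]
    exact P022D.Fm.kq_dvd (NW_dvd (U := dU U A h0)) hk)
    (fun l => QuotientGroup.mk (pr (lcCG hU l.2).1.dvd k)) (fun _ _ => rfl) w
  rw [show X.E.ρ _ w = w from Submonoid.pi_mem_of_mulSingle_mem (H := H) _ fun l => ?_] at e
  · exact e.symm
  · by_cases c : l.1 ∈ A
    · exact h l c _
    · rw [Dic.pr_Kq _ (lcCG hU' (Finset.mem_sdiff.2 ⟨l.2, c⟩)).1.dvd hk, QuotientGroup.mk_one,
        Pi.mulSingle_one]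
      exact H.one_mem

include hc hc' in
theorem mem (hG : GOP U) {J : Finset U.L.C} {J' : Finset (dU U A h0).L.C}
    (hJ : ∀ l : U.L.C, l ∈ J ↔ ∃ l' ∈ J', l'.1 = l.1) (w : U.GG U.N)
    (hw : w ∈ X.Y (XJ U.bn Cc J).v) :
    ∃ v ∈ X'.Y (XJ (dU U A h0).bn Cc' J').v, Rf (Ph hU hA hU') v w := by
  obtain ⟨⟨w, a, rfl⟩, b⟩ := hw
  have c := P022D.Fm.mem_of_sub w.2
  have hi := Ph_inj hU hA hU'
  obtain ⟨v₀, a₀, b₀⟩ := (gg_ifl' hG (dN hU hA) hU.odd hU'.three).2 _ w.1.2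
    (fixA hU hA hU' hX fun l hl => (X.E.kill_It l w).1 (by
      rw [← P022D.Rep.XJ_out U.bn Cc (J := J) fun k => ?_]
      · exact a l
      · obtain ⟨l', -, e⟩ := (hJ l).1 k
        exact (Finset.mem_sdiff.1 l'.2).2 (e ▸ hl)))
  have H := hcCG hU' _ hU'.odd hU'.three
  let v : (dU U A h0).GG (dU U A h0).N := ⟨_, H.rt (dg 1 (mu hU hA hU')) v₀ a₀⟩
  have r : Rf (Ph hU hA hU') v w.1 := by
    rw [rf_iff, ph_apply, ← b₀]
    change _ = ifl O (RD O) _ (rt O (RD O) _ (rt O (RD O) _ v₀))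
    rw [rt_rt, inv_mul_cancel, rt_one]
  have hv : v ∈ (dU U A h0).Wb _ 0 := (H.wb (lm0 hU') 0 v).2
    ⟨zp hU hA hU' (rf_iff.1 r ▸ c.1), hi (by
      rw [map_smul, ← rf_iff.1 r, map_zero]
      exact c.2)⟩
  have C : Hk (Ph hU hA hU') (dU U A h0).i U.i := ph_hk _ _ _
  refine ⟨v, ⟨⟨⟨v, hv⟩, fun l s hs => Subtype.ext ?_, rfl⟩, ?_⟩, r⟩
  · refine rf_zero hi (al hU hA hU' hX hX' l s (v := ⟨v, hv⟩) r)
      (congrArg Subtype.val (a (up l) _ (Submodule.smul_mem _ _ ?_)))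
    by_cases k : l ∈ J'
    · rw [P022D.Rep.XJ_in _ _ k] at hs
      rw [P022D.Rep.XJ_in _ _ ((hJ (up l)).2 ⟨l, k, rfl⟩)]
      exact ip_tw _ (ch hU hA hU' hc hc' l) hs
    · rw [P022D.Rep.XJ_out _ _ k] at hs
      rw [P022D.Rep.XJ_out _ _ fun k' => ?_]
      · refine Submodule.span_induction (p := fun s _ => s * _ ∈ It F _) ?_ ?_ ?_ ?_ hs
        · rintro _ ⟨g, rfl⟩
          rw [sub_mul, one_mul, ← P022D.Rep.el_mul, ← sub_sub_sub_cancel_right _ _ 1]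
          exact Submodule.sub_mem _ (Submodule.subset_span ⟨_, rfl⟩)
            (Submodule.subset_span ⟨_, rfl⟩)
        · rw [zero_mul]
          exact Submodule.zero_mem _
        · intro x y _ _ hx hy
          rw [add_mul]
          exact Submodule.add_mem _ hx hy
        · intro x y _ hy
          rw [smul_eq_mul, mul_assoc]
          exact Submodule.smul_mem _ x hy
      · obtain ⟨l', m, e⟩ := (hJ _).1 k'
        exact k ((Subtype.ext e : l' = l) ▸ m)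
  · rintro _ (⟨g, hg, rfl⟩ | ⟨l, hl, rfl⟩)
    · refine rf_zero hi ?_ (b _ (Or.inl ⟨g, hg, rfl⟩))
      rw [sub_smul, sub_smul]
      exact rf_sub (td C hU'.Nne hU.Nne hX'.op hX.op g r).1 (rf_alg _ r)
    · refine rf_zero hi ?_ (b _ (Or.inr ⟨l, hl, rfl⟩))
      rw [sub_smul, sub_smul]
      exact rf_sub (td C hU'.Nne hU.Nne hX'.op hX.op _ r).2 (rf_alg _ r)

end Vale.Agent.P022G.Trf

namespace Vale.Agent.P022G.Trf

open Vale.Agent.P022E.Fm Vale.Agent.P022G.Top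

/-- **the level transfer** -/
theorem tr0 {O F : Type} [CommRing O] [IsDomain O] [IsDiscreteValuationRing O] [P022D.V.Co O]
    [Field F] [Finite F] [CharP F 2] {U : Su O F} {A : Finset ℕ} {h0 : U.S.l0 ∉ A} (hU : U.OkG)
    (hA : A ⊆ U.L.C) (hU' : (dU U A h0).OkG) [∀ l : U.L.C, Fact l.1.Prime]
    [∀ l : (dU U A h0).L.C, Fact l.1.Prime] {Cc : ∀ l : U.L.C, P022D.Rep.Ch (ZMod l.1) F}
    {Cc' : ∀ l : (dU U A h0).L.C, P022D.Rep.Ch (ZMod l.1) F} (hc : U.IsCh Cc)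
    (hc' : (dU U A h0).IsCh Cc') (P : L0 U) (P' : L0 (dU U A h0)) (J : Finset U.L.C)
    (J' : Finset (dU U A h0).L.C) (hJ : ∀ l : U.L.C, l ∈ J ↔ ∃ l' ∈ J', l'.1 = l.1) :
    ∃ f : P.Yb (P022D.Rep.XJ U.bn Cc J) →ₗ[P022E.As.Tg O]
      P'.Yb (P022D.Rep.XJ (dU U A h0).bn Cc' J'), Function.Injective f := by
  obtain ⟨M, b, τ, X, u, lv, ok, dia⟩ := P
  obtain rfl : M = U.N := lv.eq.trans (by rw [Finset.univ_eq_empty, Finset.prod_empty, mul_one])
  obtain ⟨M', b', τ', X', u', lv', ok', dia'⟩ := P'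
  obtain rfl : M' = (dU U A h0).N :=
    lv'.eq.trans (by rw [Finset.univ_eq_empty, Finset.prod_empty, mul_one])
  exact ex_lin (U₁ := dU U A h0) (U₂ := U) (φ := Ph hU hA hU') (ph_hk _ _ U.i) (Ph_inj hU hA hU') hU'.Nne hU.Nne ok' ok u' u
    (mem hU hA hU' ok ok' hc hc' (gopCG hU) hJ)

end Vale.Agent.P022G.Trf
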