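import Vale.Agent.P022G.Fp.Tr2
import Vale.Agent.P022G.Top.Tr0

/-!
P022G: row TR0.
-/

set_option linter.all false

namespace Vale.Agent.P022G.Trf

theorem tr0C : Top.TR0 := by
  intro O F _ _ _ _ _ _ _ _ U A h0 _ _ hU hU' hA _ Cc Cc' hc hc' P P' J hJ w
  obtain ⟨f, hf⟩ := tr0 hU hA hU' hc hc' P P' J (resJ A J) fun l =>
    ⟨fun h => ⟨⟨l.1, Finset.mem_sdiff.2 ⟨l.2, hJ l h⟩⟩,
      (Finset.mem_filter.2 ⟨Finset.mem_univ _, h⟩), rfl⟩,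
    fun ⟨l', h, e⟩ => (Subtype.ext e : up l' = l) ▸ (Finset.mem_filter.1 h).2⟩
  refine ⟨{f w}, fun p h => hf ?_⟩
  exact (f.map_smul p w).trans ((h _ (Finset.mem_singleton_self _)).trans f.map_zero.symm)

end Vale.Agent.P022G.Trf
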